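import Vale.Agent.P034.Full.Descent

/-!
The two lowest levels: one plain tuple step, and single edge sampling at the bottom.
-/

open Finset

namespace Vale.Agent.P034.Full

set_option linter.unusedSectionVars false

variable {α : Type*} [Fintype α] [DecidableEq α]

/-- The heavy-edge threshold for sets of size at most `D`. -/
noncomputable def baseEta (D t : ℕ) : ℝ := 1 / (16 * ((D : ℝ) + 1) ^ t)

theorem baseEta_pos (D t : ℕ) : 0 < baseEta D t := by unfold baseEta; positivity

theorem baseEta_drop (D t : ℕ) : ((D : ℝ) + 1) ^ t * baseEta D t = 1 / 16 := by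
  unfold baseEta; field_simp

/-- A set of size at most `D'` either has a small set of big extension mass or is covered. -/
theorem base_step {ν : Finset α → ℝ} {a M : ℝ} {t k D D' : ℕ} (hν : Wt ν t) (ha : 0 ≤ a)
    (hM : 0 ≤ M) (hD : k * t + t ≤ D) :
    ∃ G : Finset (Finset α),
      cost a G ≤ M * (1 / 2) ^ k + Real.exp (-M) * volBound D' t (1 / baseEta D' t) ∧
      ∀ U : Finset α, U.card ≤ D' → 1 / 2 ≤ mass ν U →
        Covered G U ∨ ∃ Z ⊆ U, Z.card ≤ D ∧ 1 / 2 ≤ mass (fun O => 4 * ext ν a O) Z := by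
  classical
  set η := baseEta D' t
  let 𝒱 := (univ : Finset (Finset α)).filter fun V => V.card ≤ D' ∧
    (∀ x ∈ V, ∃ T, T ⊆ V ∧ η ≤ ν T ∧ x ∈ T) ∧ 7 / 16 ≤ mass ν V ∧
    ∀ Z ⊆ V, Z.card ≤ D → mass (ext ν a) Z < 1 / 8
  obtain ⟨μ, hμ0, hμc, hμh⟩ :=
    tuple_weights (σ := 1 / 8) (A := 7 / 16) hν ha (by norm_num) (by norm_num) ∅ univ k
  let q : Finset α → ℝ := fun S => M / (7 / 16) ^ k * μ S
  have hhit : ∀ V ∈ 𝒱, M ≤ mass q V := by
    intro V hV
    obtain ⟨-, -, hVm, hVn⟩ := (mem_filter.1 hV).2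
    have h1 : (7 / 16 : ℝ) ^ k ≤ mass μ V := by
      refine le_trans (hμh V (empty_subset _) (hVm.trans (le_of_eq ?_)) fun P _ hPV hPc => ?_) ?_
      · rw [mass]; congr 1; ext T; simp
      · refine le_trans ?_ (hVn P hPV (by simp at hPc; omega)).le
        calc ∑ T, ν T * a ^ (T \ P).card
            = ∑ T, ν T * a ^ (T \ (T ∩ P)).card := by simp only [sdiff_inter_self_left]
          _ ≤ ∑ T, ∑ O ∈ P.powerset, if O ⊆ T then ν T * a ^ (T \ O).card else 0 := by
              refine sum_le_sum fun T _ => le_trans (le_of_eq ?_) (single_le_sum (fun O _ => ?_)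
                (mem_powerset.2 (inter_subset_right (s₁ := T))))
              · rw [if_pos inter_subset_left]
              · split_ifs
                · exact mul_nonneg (hν.nn T) (pow_nonneg ha _)
                · exact le_rfl
          _ = mass (ext ν a) P := by
              rw [sum_comm, mass]
              simp only [ext, sum_filter]
      · exact sum_le_sum_of_subset_of_nonneg (filter_subset _ _) fun P _ _ => hμ0 P
    have h2 : mass q V = M / (7 / 16) ^ k * mass μ V := by
      simp only [q, mass]; rw [mul_sum]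
    rw [h2]
    calc M = M / (7 / 16) ^ k * (7 / 16) ^ k :=
          (div_mul_cancel₀ M (pow_ne_zero _ (by norm_num))).symm
      _ ≤ _ := mul_le_mul_of_nonneg_left h1 (div_nonneg hM (by positivity))
  obtain ⟨G, hG, hGc⟩ := sample_cover ha q
    (fun S => mul_nonneg (div_nonneg hM (by positivity)) (hμ0 S)) 𝒱 hhit
  refine ⟨G, hGc.trans (add_le_add ?_ ?_), fun U hU hm => ?_⟩
  · have h : wt q a = M / (7 / 16) ^ k * wt μ a := by
      simp only [q, wt, mul_assoc]; rw [mul_sum]
    rw [h]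
    calc M / (7 / 16) ^ k * wt μ a ≤ M / (7 / 16) ^ k * ((1 / 8) ^ k * a ^ (∅ : Finset α).card) :=
          mul_le_mul_of_nonneg_left hμc (div_nonneg hM (by positivity))
      _ = M * (1 / 8 / (7 / 16)) ^ k := by
          rw [card_empty, pow_zero, mul_one, div_mul_eq_mul_div, mul_div_assoc, ← div_pow]
      _ ≤ M * (1 / 2) ^ k :=
          mul_le_mul_of_nonneg_left (pow_le_pow_left₀ (by norm_num) (by norm_num) k) hM
  · refine mul_le_mul_of_nonneg_left (cost_spanned_le hν ha (baseEta_pos _ _) zero_le_one 𝒱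
      (fun V hV => (mem_filter.1 hV).2.1) (fun V hV => (mem_filter.1 hV).2.2.1)
      fun V hV O hO hOt => ?_) (Real.exp_pos _).le
    have := (mem_filter.1 hV).2.2.2.2 O hO (by omega)
    have := single_le_mass (ν := ext ν a) (ext_nonneg hν ha) (T := O) subset_rfl
    linarith
  · by_cases hheir : ∃ Z ⊆ U, Z.card ≤ D ∧ 1 / 2 ≤ mass (fun O => 4 * ext ν a O) Z
    · exact Or.inr hheir
    push Not at hheir
    refine Or.inl ?_
    obtain ⟨V, hVU, hVs, hVm⟩ := exists_spanned hν U hU (baseEta_pos D' t).le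
    rw [baseEta_drop] at hVm
    have hV : V ∈ 𝒱 := mem_filter.2 ⟨mem_univ _, (card_le_card hVU).trans hU, hVs,
      by linarith, fun Z hZ hZc => by
        have h4 := hheir Z (hZ.trans hVU) hZc
        rw [mass, ← mul_sum] at h4
        change 4 * mass (ext ν a) Z < 1 / 2 at h4
        linarith⟩
    obtain ⟨S, hS, hSV⟩ := hG V hV
    exact ⟨S, hS, hSV.trans hVU⟩

/-- Small sets: sampling one edge. -/
theorem bottom_cover {ν : Finset α → ℝ} {a M : ℝ} {t D : ℕ} (hν : Wt ν t) (ha : 0 ≤ a)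
    (hM : 0 ≤ M) :
    HasCover ν a (1 / 2) D ((3 * M + 2 ^ t) * wt ν a
      + Real.exp (-M) * volBound D t (1 / baseEta D t)) := by
  classical
  set η := baseEta D t
  let H := (univ : Finset (Finset α)).filter fun O => 1 ≤ ext ν a O
  let 𝒱 := (univ : Finset (Finset α)).filter fun V => V.card ≤ D ∧
    (∀ x ∈ V, ∃ T, T ⊆ V ∧ η ≤ ν T ∧ x ∈ T) ∧ 7 / 16 ≤ mass ν V ∧ ¬Covered H V
  have hH : cost a H ≤ 2 ^ t * wt ν a := by
    refine le_trans ?_ (wt_ext_le hν ha)
    refine le_trans (sum_le_sum fun O hO => le_mul_of_one_le_left (pow_nonneg ha _)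
      (mem_filter.1 hO).2) ?_
    exact sum_le_sum_of_subset_of_nonneg (subset_univ _) fun O _ _ =>
      mul_nonneg (ext_nonneg hν ha O) (pow_nonneg ha _)
  let q : Finset α → ℝ := fun S => 3 * M * ν S
  obtain ⟨G, hG, hGc⟩ := sample_cover (M := M) ha q
    (fun S => mul_nonneg (by linarith) (hν.nn S)) 𝒱 (fun V hV => by
      have hVm := (mem_filter.1 hV).2.2.2.1
      have h : mass q V = 3 * M * mass ν V := by simp only [q, mass]; rw [mul_sum]
      rw [h]
      nlinarith)
  have hq : wt q a = 3 * M * wt ν a := by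
    simp only [q, wt, mul_assoc]; rw [mul_sum, mul_sum]
  have hvol : cost a 𝒱 ≤ volBound D t (1 / η) :=
    cost_spanned_le hν ha (baseEta_pos _ _) zero_le_one 𝒱
      (fun V hV => (mem_filter.1 hV).2.1) (fun V hV => (mem_filter.1 hV).2.2.1)
      fun V hV O hO _ => by
        have hnc := (mem_filter.1 hV).2.2.2.2
        by_contra hc
        exact hnc ⟨O, mem_filter.2 ⟨mem_univ _, (not_le.1 hc).le⟩, hO⟩
  refine ⟨G ∪ H, ?_, fun U hU hm => ?_⟩
  · have := cost_union_le ha G H
    have := mul_le_mul_of_nonneg_left hvol (Real.exp_pos (-M)).le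
    linarith
  · obtain ⟨V, hVU, hVs, hVm⟩ := exists_spanned hν U hU (baseEta_pos D t).le
    rw [baseEta_drop] at hVm
    by_cases hc : Covered H V
    · obtain ⟨S, hS, hSV⟩ := hc
      exact ⟨S, mem_union_right _ hS, hSV.trans hVU⟩
    · obtain ⟨S, hS, hSV⟩ := hG V
        (mem_filter.2 ⟨mem_univ _, (card_le_card hVU).trans hU, hVs, by linarith, hc⟩)
      exact ⟨S, mem_union_left _ hS, hSV.trans hVU⟩

end Vale.Agent.P034.Full
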