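import Mathlib

/-!
Basic notions for the comparison of integral and fractional expectation thresholds.

Weights `ν` live on finite sets, `a` is the price of one element of a cover set.
-/

open Finset

namespace Vale.Agent.P034.Full

set_option linter.unusedSectionVars false

variable {α : Type*} [Fintype α] [DecidableEq α]

/-- Total weight of `ν` inside `U`. -/
def mass (ν : Finset α → ℝ) (U : Finset α) : ℝ := ∑ T ∈ U.powerset, ν T

/-- Total price of `ν`. -/
def wt (ν : Finset α → ℝ) (a : ℝ) : ℝ := ∑ T, ν T * a ^ T.card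

/-- Price of a family of sets. -/
def cost (a : ℝ) (G : Finset (Finset α)) : ℝ := ∑ S ∈ G, a ^ S.card

/-- `U` contains a member of `G`. -/
def Covered (G : Finset (Finset α)) (U : Finset α) : Prop := ∃ S ∈ G, S ⊆ U

/-- The extension weight of `O`. -/
def ext (ν : Finset α → ℝ) (a : ℝ) (O : Finset α) : ℝ :=
  ∑ T with O ⊆ T, ν T * a ^ (T \ O).card

/-- Nonnegative weights on sets of size at most `t`. -/
structure Wt (ν : Finset α → ℝ) (t : ℕ) : Prop where
  nn : ∀ T, 0 ≤ ν T
  size : ∀ T, t < T.card → ν T = 0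

/-- A cover of price at most `c` of all sets of size at most `D` and mass at least `θ`. -/
def HasCover (ν : Finset α → ℝ) (a θ : ℝ) (D : ℕ) (c : ℝ) : Prop :=
  ∃ G : Finset (Finset α), cost a G ≤ c ∧
    ∀ U : Finset α, U.card ≤ D → θ ≤ mass ν U → Covered G U

variable {ν : Finset α → ℝ} {a : ℝ} {t : ℕ}

omit [Fintype α] in
theorem mass_mono (hν : ∀ T, 0 ≤ ν T) {U V : Finset α} (h : U ⊆ V) : mass ν U ≤ mass ν V :=
  sum_le_sum_of_subset_of_nonneg (powerset_mono.2 h) fun T _ _ => hν T

omit [Fintype α] in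
theorem single_le_mass (hν : ∀ T, 0 ≤ ν T) {T U : Finset α} (h : T ⊆ U) : ν T ≤ mass ν U :=
  single_le_sum (fun T _ => hν T) (mem_powerset.2 h)

theorem ext_nonneg (hν : Wt ν t) (ha : 0 ≤ a) (O : Finset α) : 0 ≤ ext ν a O :=
  sum_nonneg fun T _ => mul_nonneg (hν.nn T) (pow_nonneg ha _)

theorem wt_nonneg (hν : Wt ν t) (ha : 0 ≤ a) : 0 ≤ wt ν a :=
  sum_nonneg fun T _ => mul_nonneg (hν.nn T) (pow_nonneg ha _)

theorem ext_wt (hν : Wt ν t) (ha : 0 ≤ a) : Wt (ext ν a) t := by
  refine ⟨ext_nonneg hν ha, fun O hO => ?_⟩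
  refine sum_eq_zero fun T hT => ?_
  have := card_le_card (mem_filter.1 hT).2
  rw [hν.size T (by omega), zero_mul]

theorem wt_ext_le (hν : Wt ν t) (ha : 0 ≤ a) : wt (ext ν a) a ≤ 2 ^ t * wt ν a := by
  have hswap : wt (ext ν a) a = ∑ T, 2 ^ T.card * (ν T * a ^ T.card) := by
    unfold wt ext
    simp only [sum_mul]
    rw [sum_comm' (t' := univ) (s' := fun T => T.powerset) (fun O T => by simp)]
    refine sum_congr rfl fun T _ => ?_
    rw [← Nat.cast_two, ← Nat.cast_pow, ← card_powerset T, ← nsmul_eq_mul, ← sum_const]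
    refine sum_congr rfl fun O hO => ?_
    rw [mul_assoc, ← pow_add, card_sdiff_add_card_eq_card (mem_powerset.1 hO)]
  rw [hswap, wt, mul_sum]
  refine sum_le_sum fun T _ => ?_
  by_cases hT : T.card ≤ t
  · exact mul_le_mul_of_nonneg_right (pow_le_pow_right₀ (by norm_num) hT)
      (mul_nonneg (hν.nn T) (pow_nonneg ha _))
  · simp [hν.size T (by omega)]

/-- Extensions of extensions. -/
theorem ext_ext_le (hν : Wt ν t) (ha : 0 ≤ a) (Q : Finset α) :
    ext (ext ν a) a Q ≤ 2 ^ t * ext ν a Q := by
  have hswap : ext (ext ν a) a Q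
      = ∑ T with Q ⊆ T, ((Icc Q T).card : ℝ) * (ν T * a ^ (T \ Q).card) := by
    unfold ext
    simp only [sum_mul]
    rw [sum_comm' (t' := univ.filter fun T => Q ⊆ T) (s' := fun T => Icc Q T) (fun O T => by
      simp only [mem_filter, mem_univ, true_and, mem_Icc]
      exact ⟨fun h => ⟨h, h.1.trans h.2⟩, fun h => h.1⟩)]
    refine sum_congr rfl fun T _ => ?_
    rw [← nsmul_eq_mul, ← sum_const]
    refine sum_congr rfl fun O hO => ?_
    obtain ⟨h1, h2⟩ := mem_Icc.1 hO
    rw [mul_assoc, ← pow_add]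
    congr 2
    have e1 := card_sdiff_add_card_eq_card h2
    have e2 := card_sdiff_add_card_eq_card h1
    have e3 := card_sdiff_add_card_eq_card (le_trans h1 h2)
    omega
  rw [hswap, ext, mul_sum]
  refine sum_le_sum fun T hT => ?_
  by_cases hs : T.card ≤ t
  · refine mul_le_mul_of_nonneg_right ?_ (mul_nonneg (hν.nn T) (pow_nonneg ha _))
    rw [card_Icc_finset (mem_filter.1 hT).2]
    push_cast
    exact pow_le_pow_right₀ (by norm_num) (by omega)
  · simp [hν.size T (by omega)]

omit [Fintype α] in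
/-- Number of small subsets. -/
theorem card_small_le (P : Finset α) (t : ℕ) :
    (P.powerset.filter fun O => O.card ≤ t).card ≤ (P.card + 1) ^ t := by
  classical
  calc (P.powerset.filter fun O => O.card ≤ t).card
      ≤ ((univ : Finset (Fin t → Option P)).image
          fun f => P.filter fun x => ∃ i, ∃ h, f i = some ⟨x, h⟩).card := by
        refine card_le_card fun O hO => ?_
        obtain ⟨hOP, hOt⟩ := mem_filter.1 hO
        rw [mem_powerset] at hOP
        refine mem_image.2 ⟨fun i => if h : (i : ℕ) < O.card then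
          some ⟨(O.equivFin.symm ⟨i, h⟩ : α), hOP (O.equivFin.symm ⟨i, h⟩).2⟩ else none,
          mem_univ _, ?_⟩
        ext x
        constructor
        · intro hx
          obtain ⟨-, i, hP, hi⟩ := mem_filter.1 hx
          by_cases h : (i : ℕ) < O.card
          · simp only [dif_pos h] at hi
            simp only [Option.some.injEq, Subtype.mk.injEq] at hi
            rw [← hi]
            exact (O.equivFin.symm ⟨i, h⟩).2
          · simp only [dif_neg h] at hi
            exact absurd hi (by simp)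
        · intro hx
          refine mem_filter.2 ⟨hOP hx, ⟨(O.equivFin ⟨x, hx⟩ : ℕ), by omega⟩, hOP hx, ?_⟩
          simp only [dif_pos (O.equivFin ⟨x, hx⟩).2]
          simp
    _ ≤ _ := card_image_le
    _ = _ := by simp

end Vale.Agent.P034.Full
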