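import Vale.Agent.P034.Full.Descent

/-!
Choice of thresholds for one level.
-/

open Finset

namespace Vale.Agent.P034.Full

theorem natCast_add_one_le_exp (n : ℕ) : (n : ℝ) + 1 ≤ Real.exp n := Real.add_one_le_exp _

theorem two_pow_le_exp (n : ℕ) : (2 : ℝ) ^ n ≤ Real.exp n := by
  rw [← Real.exp_one_pow]
  refine pow_le_pow_left₀ zero_le_two ?_ n
  linarith [Real.add_one_le_exp (1 : ℝ)]

/-- A crude exponential bound. -/
theorem volBound_le_exp (D t : ℕ) {Y : ℝ} (hY : 0 ≤ Y) :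
    volBound D t Y ≤ Real.exp (D * (t * D + Y + 1)) := by
  have h0 : ((D : ℝ) + 1) ^ t * Y ≤ Real.exp (t * D + Y) := by
    rw [Real.exp_add]
    refine mul_le_mul ?_ (by linarith [Real.add_one_le_exp Y]) hY (Real.exp_pos _).le
    rw [Real.exp_nat_mul]
    exact pow_le_pow_left₀ (by positivity) (natCast_add_one_le_exp D) t
  have h1 : max 1 (((D : ℝ) + 1) ^ t * Y) ≤ Real.exp (t * D + Y) :=
    max_le (Real.one_le_exp (by positivity)) h0
  calc volBound D t Y ≤ Real.exp D * Real.exp (t * D + Y) ^ D :=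
        mul_le_mul (natCast_add_one_le_exp D) (pow_le_pow_left₀
          (le_trans zero_le_one (le_max_left _ _)) h1 D)
          (pow_nonneg (le_trans zero_le_one (le_max_left _ _)) _) (Real.exp_pos _).le
    _ = _ := by rw [← Real.exp_nat_mul, ← Real.exp_add]; ring_nf

/-- The thresholds of a level. -/
theorem schedule {t u R D D' y : ℕ} {δ B q : ℝ} (ht : 1 ≤ t) (δpos : 0 < δ) (δle : δ ≤ 1 / 2)
    (Bone : 1 ≤ B) (Rpos : 0 < R) (Rbig : 64 * t ≤ δ ^ 2 * R * (u + 1))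
    (hyt : t ≤ 2 ^ y) (hyR : R ≤ 2 ^ y) (hyδ : 16 / δ ≤ 2 ^ y) (hyB : 2 ^ t * B ≤ 2 ^ y)
    (hq0 : 0 ≤ q) (hyq : q ≤ 2 ^ y)
    (hyM : (D' : ℝ) * (t * D' + B / (δ / (16 * ((D' : ℝ) + 1) ^ t)) + 1) + q + 1
      ≤ Real.exp ((2 : ℝ) ^ y))
    (hD : 2 ^ (y * (3 * (32 * t) ^ R + 19)) ≤ D) :
    ∃ (τ : ℕ → ℝ) (N k : ℕ → ℕ) (M : ℝ), 0 ≤ M ∧ LevelData t u R D D' τ N k δ B ∧
      ∑ r ∈ range R, (M * (1 - δ / 4) ^ k r * volBound (N r * t) t (2 ^ t * B / τ r)
        + Real.exp (-M) * volBound D' t (B / (δ / (16 * ((D' : ℝ) + 1) ^ t))))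
        ≤ R * (2 * Real.exp (-q)) := by
  set Y : ℕ := 2 ^ y with hYdef
  have hYr : (Y : ℝ) = 2 ^ y := by rw [hYdef]; push_cast; rfl
  have hY32 : (32 : ℝ) ≤ Y := by
    rw [hYr]
    refine le_trans ?_ hyδ
    rw [le_div_iff₀ δpos]; linarith
  have hY0 : (0 : ℝ) < Y := by linarith
  have hY1 : (1 : ℝ) ≤ Y := by linarith
  have hY32n : 32 ≤ Y := by exact_mod_cast hY32
  have hBY : B ≤ (Y : ℝ) := by
    rw [hYr]
    exact le_trans (le_mul_of_one_le_left (by linarith) (one_le_pow₀ one_le_two)) hyB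
  set e : ℕ → ℕ := fun r => (32 * t) ^ r with hedef
  have he1 : ∀ r, 1 ≤ e r := fun r => Nat.one_le_pow _ _ (by omega)
  have hesucc : ∀ r, e (r + 1) = 32 * t * e r := fun r => by simp only [hedef]; rw [pow_succ']
  refine ⟨fun r => ((Y : ℝ) ^ e r)⁻¹, fun r => Y ^ (e r + 2), fun r => Y ^ (3 * e r + 15),
    (D' : ℝ) * (t * D' + B / (δ / (16 * ((D' : ℝ) + 1) ^ t)) + 1) + q + 1, ?_, ?_, ?_⟩
  · positivity
  · refine ⟨δpos, δle, Bone, Rpos, Rbig, fun r _ => by positivity, fun r _ => ?_, fun r _ => ?_,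
      fun r _ => ?_, ?_⟩
    · refine inv_anti₀ (by positivity) (pow_le_pow_right₀ hY1 ?_)
      rw [hesucc]; exact Nat.le_mul_of_pos_left _ (by omega)
    · push_cast
      rw [pow_add, mul_right_comm, mul_inv_cancel₀ (by positivity), one_mul, sq]
      exact lt_of_le_of_lt hBY (by nlinarith)
    · have hcap : Y ^ (e r + 2) * t + Y ^ (3 * e r + 15) * t + 1 ≤ Y ^ (3 * e r + 17) := by
        have h1 : Y ^ (e r + 2) * t ≤ Y ^ (3 * e r + 16) := by
          calc Y ^ (e r + 2) * t ≤ Y ^ (e r + 2) * Y := Nat.mul_le_mul_left _ hyt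
            _ = Y ^ (e r + 3) := (pow_succ _ _).symm
            _ ≤ _ := Nat.pow_le_pow_right (by omega) (by omega)
        have h2 : Y ^ (3 * e r + 15) * t ≤ Y ^ (3 * e r + 16) := by
          rw [pow_succ Y (3 * e r + 15)]; exact Nat.mul_le_mul_left _ hyt
        have h3 : 1 ≤ Y ^ (3 * e r + 16) := Nat.one_le_pow _ _ (by omega)
        have h4 : Y ^ (3 * e r + 17) = Y ^ (3 * e r + 16) * Y := pow_succ _ _
        have h5 := Nat.mul_le_mul_left (Y ^ (3 * e r + 16)) (show 3 ≤ Y by omega)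
        omega
      have hcapR : ((Y ^ (e r + 2) * t + Y ^ (3 * e r + 15) * t : ℕ) : ℝ) + 1
          ≤ (Y : ℝ) ^ (3 * e r + 17) := by exact_mod_cast hcap
      refine le_trans (mul_le_mul_of_nonneg_right (pow_le_pow_left₀ (by positivity) hcapR t)
        (by positivity)) ?_
      rw [← pow_mul, ← div_eq_mul_inv, div_le_iff₀ (by positivity)]
      have hexp : (3 * e r + 17) * t + 1 ≤ e (r + 1) := by
        rw [hesucc]
        have := Nat.mul_le_mul_left t (he1 r)
        nlinarith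
      calc (Y : ℝ) ^ ((3 * e r + 17) * t)
          = δ / 16 * ((Y : ℝ) ^ ((3 * e r + 17) * t) * (16 / δ)) := by field_simp
        _ ≤ δ / 16 * ((Y : ℝ) ^ ((3 * e r + 17) * t) * Y) := by rw [hYr]; gcongr
        _ ≤ δ / 16 * (Y : ℝ) ^ e (r + 1) := by
            rw [← pow_succ]
            exact mul_le_mul_of_nonneg_left (pow_le_pow_right₀ hY1 hexp) (by positivity)
    · refine le_trans ?_ hD
      rw [pow_mul, ← hYdef]
      have hterm : ∀ r ∈ range R, Y ^ (e r + 2) * t + Y ^ (3 * e r + 15) * t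
          ≤ Y ^ (3 * (32 * t) ^ R + 17) := by
        intro r hr
        have her : e r ≤ (32 * t) ^ R :=
          Nat.pow_le_pow_right (by omega) (mem_range.1 hr).le
        have h1 : Y ^ (e r + 2) ≤ Y ^ (3 * e r + 15) := Nat.pow_le_pow_right (by omega) (by omega)
        calc Y ^ (e r + 2) * t + Y ^ (3 * e r + 15) * t
            ≤ Y ^ (3 * e r + 15) * Y + Y ^ (3 * e r + 15) * Y :=
              Nat.add_le_add (Nat.mul_le_mul h1 hyt) (Nat.mul_le_mul_left _ hyt)
          _ = 2 * Y ^ (3 * e r + 16) := by rw [pow_succ Y (3 * e r + 15)]; ring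
          _ ≤ Y * Y ^ (3 * e r + 16) := Nat.mul_le_mul_right _ (by omega)
          _ = Y ^ (3 * e r + 17) := (pow_succ' _ _).symm
          _ ≤ _ := Nat.pow_le_pow_right (by omega) (by omega)
      calc t + ∑ r ∈ range R, (Y ^ (e r + 2) * t + Y ^ (3 * e r + 15) * t)
          ≤ Y ^ (3 * (32 * t) ^ R + 18) + R * Y ^ (3 * (32 * t) ^ R + 17) := by
            refine Nat.add_le_add (hyt.trans (Nat.le_self_pow (by omega) _)) ?_
            calc _ ≤ ∑ r ∈ range R, Y ^ (3 * (32 * t) ^ R + 17) := sum_le_sum hterm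
              _ = _ := by rw [sum_const, card_range, smul_eq_mul]
        _ ≤ 2 * Y ^ (3 * (32 * t) ^ R + 18) := by
            rw [pow_succ' Y (3 * (32 * t) ^ R + 17)]
            have := Nat.mul_le_mul_right (Y ^ (3 * (32 * t) ^ R + 17)) hyR
            omega
        _ ≤ Y * Y ^ (3 * (32 * t) ^ R + 18) := Nat.mul_le_mul_right _ (by omega)
        _ = _ := (pow_succ' _ _).symm
  · refine le_trans (sum_le_card_nsmul _ _ (2 * Real.exp (-q)) fun r _ => ?_)
      (le_of_eq (by rw [card_range, nsmul_eq_mul]))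
    set V' : ℝ := (D' : ℝ) * (t * D' + B / (δ / (16 * ((D' : ℝ) + 1) ^ t)) + 1)
    have hYv : 0 ≤ B / (δ / (16 * ((D' : ℝ) + 1) ^ t)) := by positivity
    have htwo : Real.exp (-(V' + q + 1)) * volBound D' t (B / (δ / (16 * ((D' : ℝ) + 1) ^ t)))
        ≤ Real.exp (-q) := by
      refine le_trans (mul_le_mul_of_nonneg_left (volBound_le_exp D' t hYv) (Real.exp_pos _).le) ?_
      rw [← Real.exp_add]
      refine Real.exp_le_exp.2 ?_
      simp only [V']; linarith
    have hone : (V' + q + 1) * (1 - δ / 4) ^ (Y ^ (3 * e r + 15))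
        * volBound (Y ^ (e r + 2) * t) t (2 ^ t * B / ((Y : ℝ) ^ e r)⁻¹) ≤ Real.exp (-q) := by
      have hZ : (((Y ^ (e r + 2) * t : ℕ)) : ℝ) ≤ (Y : ℝ) ^ (e r + 3) := by
        have : Y ^ (e r + 2) * t ≤ Y ^ (e r + 3) := by
          rw [pow_succ Y (e r + 2)]; exact Nat.mul_le_mul_left _ hyt
        exact_mod_cast this
      have hv : 2 ^ t * B / ((Y : ℝ) ^ e r)⁻¹ ≤ (Y : ℝ) ^ (e r + 1) := by
        rw [div_inv_eq_mul, pow_succ', hYr]
        exact mul_le_mul_of_nonneg_right hyB (by positivity)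
      have hv0 : 0 ≤ 2 ^ t * B / ((Y : ℝ) ^ e r)⁻¹ := by positivity
      have hvol := volBound_le_exp (Y ^ (e r + 2) * t) t hv0
      have hexp2 : (((Y ^ (e r + 2) * t : ℕ)) : ℝ) * (t * ((Y ^ (e r + 2) * t : ℕ) : ℝ)
          + 2 ^ t * B / ((Y : ℝ) ^ e r)⁻¹ + 1) ≤ (Y : ℝ) ^ (2 * e r + 8) := by
        have htY : (t : ℝ) ≤ Y := by exact_mod_cast hyt
        have h5 : (1 : ℝ) ≤ (Y : ℝ) ^ (e r + 4) := one_le_pow₀ hY1
        have h6 : (Y : ℝ) ^ (e r + 1) ≤ (Y : ℝ) ^ (e r + 4) := pow_le_pow_right₀ hY1 (by omega)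
        have h7 : (t : ℝ) * ((Y ^ (e r + 2) * t : ℕ) : ℝ) ≤ (Y : ℝ) ^ (e r + 4) := by
          calc _ ≤ (Y : ℝ) * (Y : ℝ) ^ (e r + 3) := mul_le_mul htY hZ (Nat.cast_nonneg _) hY0.le
            _ = _ := (pow_succ' _ _).symm
        calc _ ≤ (Y : ℝ) ^ (e r + 3) * (3 * (Y : ℝ) ^ (e r + 4)) :=
              mul_le_mul hZ (by linarith) (by positivity) (by positivity)
          _ = 3 * (Y : ℝ) ^ (2 * e r + 7) := by ring
          _ ≤ (Y : ℝ) * (Y : ℝ) ^ (2 * e r + 7) := by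
              refine mul_le_mul_of_nonneg_right (by linarith) (by positivity)
          _ = _ := (pow_succ' _ _).symm
      have hk : (1 - δ / 4) ^ (Y ^ (3 * e r + 15)) ≤ Real.exp (-(Y : ℝ) ^ (3 * e r + 14)) := by
        refine le_trans (pow_le_pow_left₀ (by linarith) (Real.one_sub_le_exp_neg _) _) ?_
        rw [← Real.exp_nat_mul]
        refine Real.exp_le_exp.2 ?_
        push_cast
        rw [pow_succ (Y : ℝ) (3 * e r + 14)]
        have : 4 ≤ (Y : ℝ) * δ := by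
          have := (div_le_iff₀ δpos).1 hyδ
          rw [← hYr] at this
          linarith
        nlinarith [mul_le_mul_of_nonneg_left this (pow_nonneg hY0.le (3 * e r + 14))]
      calc (V' + q + 1) * (1 - δ / 4) ^ (Y ^ (3 * e r + 15))
            * volBound (Y ^ (e r + 2) * t) t (2 ^ t * B / ((Y : ℝ) ^ e r)⁻¹)
          ≤ Real.exp (Y : ℝ) * Real.exp (-(Y : ℝ) ^ (3 * e r + 14))
              * Real.exp ((Y : ℝ) ^ (2 * e r + 8)) := by
            refine mul_le_mul (mul_le_mul (by rw [hYr]; exact hyM) hk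
              (pow_nonneg (by linarith) _) (Real.exp_pos _).le)
              (hvol.trans (Real.exp_le_exp.2 hexp2)) (volBound_nonneg _ _ _) ?_
            exact mul_nonneg (Real.exp_pos _).le (Real.exp_pos _).le
        _ = Real.exp (Y + -(Y : ℝ) ^ (3 * e r + 14) + (Y : ℝ) ^ (2 * e r + 8)) := by
            rw [Real.exp_add, Real.exp_add]
        _ ≤ Real.exp (-q) := by
            refine Real.exp_le_exp.2 ?_
            have h8 : (Y : ℝ) ≤ (Y : ℝ) ^ (2 * e r + 8) := le_self_pow₀ hY1 (by omega)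
            have h9 : 3 * (Y : ℝ) ^ (2 * e r + 8) ≤ (Y : ℝ) ^ (3 * e r + 14) := by
              calc _ ≤ (Y : ℝ) * (Y : ℝ) ^ (2 * e r + 8) :=
                    mul_le_mul_of_nonneg_right (by linarith) (by positivity)
                _ = (Y : ℝ) ^ (2 * e r + 9) := (pow_succ' _ _).symm
                _ ≤ _ := pow_le_pow_right₀ hY1 (by omega)
            rw [← hYr] at hyq
            linarith
    linarith

end Vale.Agent.P034.Full
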