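import Vale.Agent.P034.Full.Base
import Vale.Agent.P034.Full.Schedule

/-!
All levels together: covers for every size.
-/

open Finset

namespace Vale.Agent.P034.Full

/-- The double logarithm of the size bound of level `i`. -/
def lev (t i : ℕ) : ℕ := 65536 * t * (i + 2) ^ 6

/-- The size bound of level `i`. -/
def cap (t i : ℕ) : ℕ := 2 ^ (2 ^ lev t i)

theorem lev_def (t i : ℕ) : lev t i = 65536 * t * (i + 2) ^ 6 := rfl

theorem cap_def (t i : ℕ) : cap t i = 2 ^ (2 ^ lev t i) := rfl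

/-- The exponent of the absolute constant. -/
def expo : ℕ := 8500000

theorem expo_def : expo = 8500000 := rfl

/-- The mass threshold of level `i`. -/
noncomputable def thr (i : ℕ) : ℝ := 3 / 4 - 1 / (8 * ((i : ℝ) + 1))

/-- The target price for sets with edges of size at most `t`. -/
noncomputable def goal (t : ℕ) : ℝ := Real.exp (-(3 * t + 20 : ℝ))

attribute [local irreducible] lev cap expo

theorem thr_ge (i : ℕ) : 5 / 8 ≤ thr i := by
  have h : 1 / (8 * ((i : ℝ) + 1)) ≤ 1 / 8 :=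
    one_div_le_one_div_of_le (by norm_num) (by linarith [(Nat.cast_nonneg i : (0 : ℝ) ≤ i)])
  unfold thr; linarith

theorem thr_le (i : ℕ) : thr i ≤ 3 / 4 := by
  have : 0 ≤ 1 / (8 * ((i : ℝ) + 1)) := by positivity
  unfold thr; linarith

theorem thr_step (i : ℕ) :
    thr i ≤ (1 - 1 / (8 * ((i : ℝ) + 2) ^ 2)) * thr (i + 1) := by
  have hi : (0 : ℝ) ≤ i := Nat.cast_nonneg i
  have h1 : 1 / (8 * ((i : ℝ) + 2) ^ 2) * thr (i + 1) ≤ 1 / (8 * ((i : ℝ) + 2) ^ 2) :=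
    mul_le_of_le_one_right (by positivity) ((thr_le (i + 1)).trans (by norm_num))
  have h2 : thr (i + 1) - thr i = 1 / (8 * ((i : ℝ) + 1) * ((i : ℝ) + 2)) := by
    unfold thr; push_cast; field_simp; ring
  have h3 : 1 / (8 * ((i : ℝ) + 2) ^ 2) ≤ 1 / (8 * ((i : ℝ) + 1) * ((i : ℝ) + 2)) := by
    refine one_div_le_one_div_of_le (by positivity) ?_
    nlinarith
  linarith

theorem mul_two_pow_le {a b : ℕ} : a * 2 ^ b ≤ 2 ^ (a + b) := by
  rw [pow_add]; exact Nat.mul_le_mul_right _ Nat.lt_two_pow_self.le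

variable {α : Type*} [Fintype α] [DecidableEq α]

set_option linter.unusedSectionVars false

theorem sq_le_two_pow (i : ℕ) : ((i : ℝ) + 2) ^ 2 ≤ 2 ^ (2 * (i + 2)) := by
  rw [mul_comm 2 (i + 2), pow_mul]
  refine pow_le_pow_left₀ (by positivity) ?_ 2
  exact_mod_cast (Nat.lt_two_pow_self (n := i + 2)).le

theorem rounds_le_two_pow (i : ℕ) : 4096 * (i + 2) ^ 6 ≤ 2 ^ (12 + 6 * (i + 2)) := by
  rw [pow_add, mul_comm 6 (i + 2), pow_mul]
  exact Nat.mul_le_mul (by norm_num) (Nat.pow_le_pow_left Nat.lt_two_pow_self.le 6)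

/-- The base `2 ^ y` of the thresholds of level `i`. -/
def base (t i : ℕ) : ℕ := lev t (i + 1) + (3 * t + 6 * (i + 2) + 24)

theorem base_def (t i : ℕ) : base t i = lev t (i + 1) + (3 * t + 6 * (i + 2) + 24) := rfl

attribute [local irreducible] base

theorem base_q (t i : ℕ) : 3 * t + 20 + 2 * (4096 * (i + 2) ^ 6) + 1 ≤ 2 ^ base t i := by
  rw [base_def]
  have h1 : 3 * t + 21 ≤ 2 ^ (3 * t + 21) := Nat.lt_two_pow_self.le
  have h2 : 2 ^ (3 * t + 21) ≤ 2 ^ (3 * t + 6 * (i + 2) + 22) :=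
    Nat.pow_le_pow_right (by omega) (by omega)
  have h3 : 2 ^ (12 + 6 * (i + 2) + 1) ≤ 2 ^ (3 * t + 6 * (i + 2) + 22) :=
    Nat.pow_le_pow_right (by omega) (by omega)
  have h4 : 2 ^ (12 + 6 * (i + 2) + 1) = 2 ^ (12 + 6 * (i + 2)) * 2 := pow_succ _ _
  have h4' := rounds_le_two_pow i
  have h5 : 2 ^ (3 * t + 6 * (i + 2) + 23) ≤ 2 ^ (lev t (i + 1) + (3 * t + 6 * (i + 2) + 24)) :=
    Nat.pow_le_pow_right (by omega) (by omega)
  have h6 : 2 ^ (3 * t + 6 * (i + 2) + 23) = 2 ^ (3 * t + 6 * (i + 2) + 22) * 2 := pow_succ _ _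
  omega

theorem inner_le (t i P : ℕ) :
    2 ^ t * ((i : ℝ) + 2) ^ 2 / (1 / (8 * ((i : ℝ) + 2) ^ 2) / (16 * ((2 : ℝ) ^ P + 1) ^ t))
      ≤ 2 ^ (t + 4 * (i + 2) + 7 + t * (P + 1)) := by
  have e : 2 ^ t * ((i : ℝ) + 2) ^ 2 / (1 / (8 * ((i : ℝ) + 2) ^ 2) / (16 * ((2 : ℝ) ^ P + 1) ^ t))
      = 2 ^ t * ((i : ℝ) + 2) ^ 2 * (2 ^ 7 * ((i : ℝ) + 2) ^ 2) * ((2 : ℝ) ^ P + 1) ^ t := by
    field_simp; ring
  rw [e, show (2 : ℝ) ^ (t + 4 * (i + 2) + 7 + t * (P + 1))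
    = 2 ^ t * 2 ^ (2 * (i + 2)) * (2 ^ 7 * 2 ^ (2 * (i + 2))) * (2 ^ (P + 1)) ^ t by
      rw [← pow_mul, ← pow_add, ← pow_add, ← pow_add, ← pow_add]; congr 1; ring]
  have hs := sq_le_two_pow i
  refine mul_le_mul (mul_le_mul (mul_le_mul_of_nonneg_left hs (by positivity))
    (mul_le_mul_of_nonneg_left hs (by positivity)) (by positivity) (by positivity))
    (pow_le_pow_left₀ (by positivity) ?_ t) (by positivity) (by positivity)
  rw [pow_succ]
  have : (1 : ℝ) ≤ 2 ^ P := one_le_pow₀ one_le_two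
  linarith

theorem base_M (t i : ℕ) :
    (cap t (i + 1) : ℝ) * (t * (cap t (i + 1) : ℕ) + 2 ^ t * ((i : ℝ) + 2) ^ 2
      / (1 / (8 * ((i : ℝ) + 2) ^ 2) / (16 * (((cap t (i + 1) : ℕ) : ℝ) + 1) ^ t)) + 1)
      + (3 * (t : ℝ) + 20 + 2 * ((4096 * (i + 2) ^ 6 : ℕ) : ℝ)) + 1
      ≤ Real.exp ((2 : ℝ) ^ base t i) := by
  obtain ⟨P, hP⟩ : ∃ P : ℕ, P = 2 ^ lev t (i + 1) := ⟨_, rfl⟩
  have hP1 : 1 ≤ P := hP ▸ Nat.one_le_pow _ _ (by omega)
  have hc : cap t (i + 1) = 2 ^ P := by rw [hP, cap_def]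
  have hcr : ((cap t (i + 1) : ℕ) : ℝ) = 2 ^ P := by rw [hc]; push_cast; rfl
  rw [hcr]
  obtain ⟨x, hx⟩ : ∃ x : ℕ, x = t + 4 * (i + 2) + 7 + t * (P + 1) := ⟨_, rfl⟩
  have h1 := inner_le t i P
  rw [← hx] at h1
  have h2 : (t : ℝ) * 2 ^ P ≤ 2 ^ x := by
    have h : t * 2 ^ P ≤ 2 ^ x := by
      rcases Nat.eq_zero_or_pos t with ht | ht
      · subst ht; simp
      · refine mul_two_pow_le.trans (Nat.pow_le_pow_right (by omega) ?_)
        have := Nat.le_mul_of_pos_left (P + 1) ht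
        omega
    exact_mod_cast h
  have h3 : (1 : ℝ) ≤ 2 ^ x := one_le_pow₀ one_le_two
  have hq := base_q t i
  obtain ⟨y, hy⟩ : ∃ y : ℕ, y = base t i := ⟨_, rfl⟩
  rw [← hy] at hq ⊢
  have hy1 : y < 2 ^ y := Nat.lt_two_pow_self
  have h4 : (3 * (t : ℝ) + 20 + 2 * ((4096 * (i + 2) ^ 6 : ℕ) : ℝ)) + 1 ≤ (2 : ℝ) ^ (2 ^ y - 1) := by
    have hn : 3 * t + 20 + 2 * (4096 * (i + 2) ^ 6) + 1 ≤ 2 ^ (2 ^ y - 1) :=
      hq.trans (Nat.pow_le_pow_right (by omega) (by omega))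
    exact_mod_cast hn
  have hexp : P + x + 2 + 1 ≤ 2 ^ y := by
    have h := mul_two_pow_le (a := 3 * t + 4 * (i + 2) + 12) (b := lev t (i + 1))
    have hy2 : 2 ^ (3 * t + 4 * (i + 2) + 12 + lev t (i + 1)) ≤ 2 ^ y :=
      Nat.pow_le_pow_right (by omega) (by rw [hy]; rw [base_def]; omega)
    have h' : P + x + 3 ≤ (3 * t + 4 * (i + 2) + 12) * P := by rw [hx]; nlinarith
    rw [← hP] at h
    omega
  have h5 : (2 : ℝ) ^ P * ((t : ℝ) * 2 ^ P + 2 ^ t * ((i : ℝ) + 2) ^ 2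
      / (1 / (8 * ((i : ℝ) + 2) ^ 2) / (16 * ((2 : ℝ) ^ P + 1) ^ t)) + 1)
      ≤ (2 : ℝ) ^ (2 ^ y - 1) := by
    calc _ ≤ (2 : ℝ) ^ P * (4 * 2 ^ x) :=
          mul_le_mul_of_nonneg_left (by linarith) (by positivity)
      _ = 2 ^ (P + x + 2) := by ring
      _ ≤ _ := pow_le_pow_right₀ one_le_two (by omega)
  have h6 : (2 : ℝ) ^ (2 ^ y - 1) + 2 ^ (2 ^ y - 1) = 2 ^ (2 ^ y) := by
    rw [← mul_two, ← pow_succ]; congr 1; omega
  have h7 := two_pow_le_exp (2 ^ y)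
  push_cast at h7 h4 ⊢
  linarith

theorem rounds_room (t i : ℕ) (ht : 1 ≤ t) :
    2 ^ (base t i * (3 * (32 * t) ^ (4096 * (i + 2) ^ 6) + 19)) ≤ cap t i := by
  rw [cap_def]
  refine Nat.pow_le_pow_right (by omega) ?_
  have hR := rounds_le_two_pow i
  obtain ⟨R, hRdef⟩ : ∃ R : ℕ, R = 4096 * (i + 2) ^ 6 := ⟨_, rfl⟩
  rw [← hRdef]
  have h1 : (32 * t) ^ R ≤ 2 ^ ((5 + t) * R) := by
    rw [pow_mul]
    refine Nat.pow_le_pow_left ?_ R
    rw [pow_add]; exact Nat.mul_le_mul (by norm_num) Nat.lt_two_pow_self.le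
  have h2 : 3 * (32 * t) ^ R + 19 ≤ 2 ^ (5 + (5 + t) * R) := by
    rw [pow_add]
    have : 1 ≤ 2 ^ ((5 + t) * R) := Nat.one_le_pow _ _ (by omega)
    omega
  have h3 : base t i ≤ 2 ^ (16 + t + 6 * (i + 3) + 1) := by
    have h3a : lev t (i + 1) ≤ 2 ^ (16 + t + 6 * (i + 3)) := by
      rw [lev_def, pow_add, pow_add, mul_comm 6 (i + 3), pow_mul]
      exact Nat.mul_le_mul (Nat.mul_le_mul (by norm_num) Nat.lt_two_pow_self.le)
        (Nat.pow_le_pow_left Nat.lt_two_pow_self.le 6)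
    have h3b : 3 * t + 6 * (i + 2) + 24 ≤ 2 ^ (16 + t + 6 * (i + 3)) := by
      have e2 : 2 ^ (16 + t + 6 * (i + 3)) = 2 ^ 16 * 2 ^ t * 2 ^ (6 * (i + 3)) := by
        rw [pow_add, pow_add]
      have e3 : t + 1 ≤ 2 ^ t := Nat.lt_two_pow_self
      have e4 : 6 * (i + 3) + 1 ≤ 2 ^ (6 * (i + 3)) := Nat.lt_two_pow_self
      rw [e2]
      nlinarith [Nat.mul_le_mul e3 e4]
    rw [base_def]
    rw [pow_succ]; omega
  calc base t i * (3 * (32 * t) ^ R + 19)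
      ≤ 2 ^ (16 + t + 6 * (i + 3) + 1) * 2 ^ (5 + (5 + t) * R) := Nat.mul_le_mul h3 h2
    _ ≤ 2 ^ lev t i := by
        rw [← pow_add]
        refine Nat.pow_le_pow_right (by omega) ?_
        rw [lev_def, hRdef]
        have e1 : i + 2 ≤ (i + 2) ^ 6 := Nat.le_self_pow (by omega) _
        have e2 : (5 + t) * (4096 * (i + 2) ^ 6) ≤ 24576 * t * (i + 2) ^ 6 := by
          calc _ ≤ (6 * t) * (4096 * (i + 2) ^ 6) := Nat.mul_le_mul_right _ (by omega)
            _ = _ := by ring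
        have e3 : t * (i + 2) ≤ t * (i + 2) ^ 6 := Nat.mul_le_mul_left _ e1
        have e4 : i + 2 ≤ t * (i + 2) := Nat.le_mul_of_pos_left _ (by omega)
        have e5 : t * 2 ≤ t * (i + 2) := Nat.mul_le_mul_left _ (by omega)
        have e6 : 65536 * t * (i + 2) ^ 6
            = 24576 * t * (i + 2) ^ 6 + 40960 * (t * (i + 2) ^ 6) := by
          ring
        omega

theorem factor_le {t i u : ℕ} (ht : 1 ≤ t) (hu : (u : ℝ) * ((i : ℝ) + 2) ^ 2 ≤ t) :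
    (2 : ℝ) ^ u + 2 ^ t / (2 ^ t * ((i : ℝ) + 2) ^ 2)
      ≤ Real.exp (2 * t / (((i : ℝ) + 1) * ((i : ℝ) + 2))) := by
  have hi0 : (0 : ℝ) ≤ i := Nat.cast_nonneg i
  have e : (2 : ℝ) ^ t / (2 ^ t * ((i : ℝ) + 2) ^ 2) = 1 / ((i : ℝ) + 2) ^ 2 := by field_simp
  rw [e]
  have hzz : 1 / ((i : ℝ) + 2) ^ 2 * ((i : ℝ) + 2) ^ 2 = 1 := by field_simp
  obtain ⟨z, hz'⟩ : ∃ z : ℝ, z = 1 / ((i : ℝ) + 2) ^ 2 := ⟨_, rfl⟩
  rw [← hz'] at hzz ⊢
  have hz : 0 ≤ z := by rw [hz']; positivity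
  calc (2 : ℝ) ^ u + z ≤ 2 ^ u * (1 + z) := by
        have : (1 : ℝ) ≤ 2 ^ u := one_le_pow₀ one_le_two
        nlinarith
    _ ≤ Real.exp u * Real.exp z :=
        mul_le_mul (two_pow_le_exp u) (by linarith [Real.add_one_le_exp z]) (by positivity)
          (Real.exp_pos _).le
    _ = Real.exp (u + z) := (Real.exp_add _ _).symm
    _ ≤ _ := by
        refine Real.exp_le_exp.2 ?_
        rw [le_div_iff₀ (by positivity)]
        have htr : (1 : ℝ) ≤ t := by exact_mod_cast ht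
        calc ((u : ℝ) + z) * (((i : ℝ) + 1) * ((i : ℝ) + 2))
            ≤ ((u : ℝ) + z) * ((i : ℝ) + 2) ^ 2 :=
              mul_le_mul_of_nonneg_left (by nlinarith) (by positivity)
          _ ≤ 2 * t := by rw [add_mul, hzz]; linarith

theorem level_price (t i R : ℕ) (hR : i + 1 ≤ R) :
    (R : ℝ) * (2 * Real.exp (-(3 * (t : ℝ) + 20 + 2 * R))) ≤ goal t * (1 / 2) ^ i := by
  have e1 : Real.exp (-(3 * (t : ℝ) + 20 + 2 * R))
      = goal t * (Real.exp (-(R : ℝ)) * Real.exp (-(R : ℝ))) := by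
    rw [goal, ← Real.exp_add, ← Real.exp_add]; congr 1; ring
  have e2 : (R : ℝ) * 2 * Real.exp (-(R : ℝ)) ≤ 1 := by
    rw [Real.exp_neg, ← div_eq_mul_inv, div_le_one (Real.exp_pos _), mul_comm]
    refine le_trans ?_ (two_pow_le_exp R)
    have h : 2 * R ≤ 2 ^ R := by
      obtain ⟨n, hn⟩ : ∃ n, R = n + 1 := ⟨R - 1, by omega⟩
      have := Nat.lt_two_pow_self (n := n)
      rw [hn, pow_succ]; omega
    exact_mod_cast h
  have e3 : Real.exp (-(R : ℝ)) ≤ (1 / 2) ^ i := by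
    rw [one_div, inv_pow, Real.exp_neg]
    refine inv_anti₀ (by positivity) ((two_pow_le_exp i).trans (Real.exp_le_exp.2 ?_))
    exact_mod_cast (Nat.le_succ i).trans hR
  calc (R : ℝ) * (2 * Real.exp (-(3 * (t : ℝ) + 20 + 2 * R)))
      = goal t * ((R : ℝ) * 2 * Real.exp (-(R : ℝ)) * Real.exp (-(R : ℝ))) := by rw [e1]; ring
    _ ≤ goal t * (1 * (1 / 2) ^ i) := mul_le_mul_of_nonneg_left
        (mul_le_mul e2 e3 (Real.exp_pos _).le zero_le_one) (Real.exp_pos _).le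
    _ = _ := by ring

/-- Descending by one level. -/
theorem level_down {ν : Finset α → ℝ} {a : ℝ} {t : ℕ} (hν : Wt ν t) (ha : 0 ≤ a) (ht : 1 ≤ t)
    (i : ℕ) :
    ∃ ν' : Finset α → ℝ, Wt ν' t ∧
      wt ν' a ≤ Real.exp (2 * t / (((i : ℝ) + 1) * ((i : ℝ) + 2))) * wt ν a ∧
      ∀ c, HasCover ν' a (thr i) (cap t i) c →
        HasCover ν a (thr (i + 1)) (cap t (i + 1)) (goal t * (1 / 2) ^ i + c) := by
  have hi0 : (0 : ℝ) ≤ i := Nat.cast_nonneg i
  have hi2 : (4 : ℝ) ≤ ((i : ℝ) + 2) ^ 2 := by nlinarith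
  have δpos : (0 : ℝ) < 1 / (8 * ((i : ℝ) + 2) ^ 2) := by positivity
  have δle : 1 / (8 * ((i : ℝ) + 2) ^ 2) ≤ (1 : ℝ) / 2 :=
    one_div_le_one_div_of_le (by norm_num) (by linarith)
  have hp1 : (1 : ℝ) ≤ 2 ^ t := one_le_pow₀ one_le_two
  have Bone : (1 : ℝ) ≤ 2 ^ t * ((i : ℝ) + 2) ^ 2 := by nlinarith
  have hu1 : (t : ℝ) ≤ ((i : ℝ) + 2) ^ 2 * (((t / (i + 2) ^ 2 : ℕ) : ℝ) + 1) := by
    have := (Nat.lt_mul_div_succ t (show 0 < (i + 2) ^ 2 by positivity)).le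
    exact_mod_cast this
  have hu2 : ((t / (i + 2) ^ 2 : ℕ) : ℝ) * ((i : ℝ) + 2) ^ 2 ≤ t := by
    have := Nat.div_mul_le_self t ((i + 2) ^ 2)
    exact_mod_cast this
  have Rbig : 64 * (t : ℝ) ≤ (1 / (8 * ((i : ℝ) + 2) ^ 2)) ^ 2
      * ((4096 * (i + 2) ^ 6 : ℕ) : ℝ) * (((t / (i + 2) ^ 2 : ℕ) : ℝ) + 1) := by
    have : (1 / (8 * ((i : ℝ) + 2) ^ 2)) ^ 2 * ((4096 * (i + 2) ^ 6 : ℕ) : ℝ)
        = 64 * ((i : ℝ) + 2) ^ 2 := by
      push_cast; field_simp; ring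
    rw [this]; linarith
  have hyt : t ≤ 2 ^ base t i :=
    le_trans Nat.lt_two_pow_self.le (Nat.pow_le_pow_right (by omega) (by rw [base_def]; omega))
  have hyR : 4096 * (i + 2) ^ 6 ≤ 2 ^ base t i :=
    (rounds_le_two_pow i).trans (Nat.pow_le_pow_right (by omega) (by rw [base_def]; omega))
  have hyδ : 16 / (1 / (8 * ((i : ℝ) + 2) ^ 2)) ≤ (2 : ℝ) ^ base t i := by
    have : 16 / (1 / (8 * ((i : ℝ) + 2) ^ 2)) = 2 ^ 7 * ((i : ℝ) + 2) ^ 2 := by field_simp; ring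
    rw [this]
    refine le_trans (mul_le_mul_of_nonneg_left (sq_le_two_pow i) (by positivity)) ?_
    rw [← pow_add]
    exact pow_le_pow_right₀ one_le_two (by rw [base_def]; omega)
  have hyB : (2 : ℝ) ^ t * (2 ^ t * ((i : ℝ) + 2) ^ 2) ≤ 2 ^ base t i := by
    rw [← mul_assoc, ← pow_add]
    refine le_trans (mul_le_mul_of_nonneg_left (sq_le_two_pow i) (by positivity)) ?_
    rw [← pow_add]
    exact pow_le_pow_right₀ one_le_two (by rw [base_def]; omega)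
  have hyq : 3 * (t : ℝ) + 20 + 2 * ((4096 * (i + 2) ^ 6 : ℕ) : ℝ) ≤ (2 : ℝ) ^ base t i := by
    have h : 3 * t + 20 + 2 * (4096 * (i + 2) ^ 6) ≤ 2 ^ base t i :=
      (Nat.le_succ _).trans (base_q t i)
    exact_mod_cast h
  have hRpos : 0 < 4096 * (i + 2) ^ 6 := Nat.mul_pos (by norm_num) (Nat.pow_pos (by omega))
  have hq0 : 0 ≤ 3 * (t : ℝ) + 20 + 2 * ((4096 * (i + 2) ^ 6 : ℕ) : ℝ) :=
    add_nonneg (by linarith [(Nat.cast_nonneg t : (0 : ℝ) ≤ t)])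
      (mul_nonneg zero_le_two (Nat.cast_nonneg _))
  obtain ⟨τ, N, k, M, hM, hdata, hcost⟩ :=
    schedule (D := cap t i) (D' := cap t (i + 1)) (y := base t i)
      (u := t / (i + 2) ^ 2) (R := 4096 * (i + 2) ^ 6)
      (q := 3 * (t : ℝ) + 20 + 2 * ((4096 * (i + 2) ^ 6 : ℕ) : ℝ))
      ht δpos δle Bone hRpos Rbig hyt hyR hyδ hyB hq0 hyq (base_M t i) (rounds_room t i ht)
  refine ⟨child ν a τ (t / (i + 2) ^ 2) (4096 * (i + 2) ^ 6) (2 ^ t * ((i : ℝ) + 2) ^ 2),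
    child_wt hν ha (le_trans zero_le_one Bone),
    le_trans (wt_child_le hν ha (lt_of_lt_of_le one_pos Bone) hdata.τanti)
      (mul_le_mul_of_nonneg_right (factor_le ht hu2) (wt_nonneg hν ha)), fun c hc => ?_⟩
  have hge := thr_ge (i + 1)
  have hle := thr_le (i + 1)
  obtain ⟨G, hG, hGc⟩ := level_step hν ha (θ := thr (i + 1)) (by linarith) (by linarith) hM hdata
  refine hasCover_descend ha hc ⟨G, (hG.trans hcost).trans (level_price t i _ ?_),
    fun U hU hm => ?_⟩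
  · have : i + 2 ≤ (i + 2) ^ 6 := Nat.le_self_pow (by omega) _
    omega
  · rcases hGc U hU hm with h | ⟨Z, hZ, hZc, hZm⟩
    · exact Or.inl h
    · exact Or.inr ⟨Z, hZ, hZc, (thr_step i).trans hZm⟩

/-- Covers for the lowest level. -/
theorem base_cover {ν : Finset α → ℝ} {a : ℝ} {t : ℕ} (hν : Wt ν t) (ha : 0 ≤ a) (ht : 1 ≤ t)
    (hw : wt ν a ≤ Real.exp (2 * t) * ((1 / 2 : ℝ) ^ expo) ^ t) :
    HasCover ν a (thr 0) (cap t 0) (4 * goal t) := by
  obtain ⟨L, hL⟩ : ∃ L : ℕ, L = lev t 0 := ⟨_, rfl⟩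
  have hLt : L = 4194304 * t := by rw [hL]; rw [lev_def]; ring
  obtain ⟨y, hy⟩ : ∃ y : ℕ, y = L + (3 * t + 24) := ⟨_, rfl⟩
  obtain ⟨P, hP⟩ : ∃ P : ℕ, P = 2 ^ L := ⟨_, rfl⟩
  obtain ⟨D', hD'⟩ : ∃ D' : ℕ, D' = cap t 0 := ⟨_, rfl⟩
  rw [← hD']
  have hD'e : D' = 2 ^ P := by rw [hD', cap_def, hP, hL]
  obtain ⟨k, hk⟩ : ∃ k : ℕ, k = 2 ^ (y + 2) := ⟨_, rfl⟩
  obtain ⟨d, hd⟩ : ∃ d : ℕ, d = y + t + 3 := ⟨_, rfl⟩
  obtain ⟨q, hq⟩ : ∃ q : ℝ, q = 3 * t + 20 := ⟨_, rfl⟩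
  have hgoal : goal t = Real.exp (-q) := by rw [hq, goal]
  have hqn : 3 * t + 21 ≤ 2 ^ y :=
    le_trans Nat.lt_two_pow_self.le (Nat.pow_le_pow_right (by omega) (by omega))
  have hqY : q + 1 ≤ ((2 ^ y : ℕ) : ℝ) := by
    have : ((3 * t + 21 : ℕ) : ℝ) ≤ ((2 ^ y : ℕ) : ℝ) := by exact_mod_cast hqn
    push_cast at this ⊢
    rw [hq]; linarith
  have hDk : k * t + t ≤ 2 ^ d := by
    have h1 : k * t ≤ 2 ^ (y + 2 + t) := by
      rw [hk, pow_add _ (y + 2) t]; exact Nat.mul_le_mul_left _ Nat.lt_two_pow_self.le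
    have h2 : t ≤ 2 ^ (y + 2 + t) :=
      le_trans Nat.lt_two_pow_self.le (Nat.pow_le_pow_right (by omega) (by omega))
    rw [hd, show y + t + 3 = y + 2 + t + 1 by ring, pow_succ]; omega
  -- the tuple level
  obtain ⟨Y1, hY1⟩ : ∃ Y1 : ℝ, Y1 = 1 / baseEta D' t := ⟨_, rfl⟩
  have hY1e : Y1 = 16 * ((D' : ℝ) + 1) ^ t := by rw [hY1]; unfold baseEta; field_simp
  obtain ⟨M, hM⟩ : ∃ M : ℝ, M = (D' : ℝ) * (t * D' + Y1 + 1) + q := ⟨_, rfl⟩
  have hq0 : 0 ≤ q := by rw [hq]; positivity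
  have hM0 : 0 ≤ M := by
    rw [hM, hY1e]; positivity
  obtain ⟨G, hG, hGc⟩ := base_step (D := 2 ^ d) (D' := D') (k := k) hν ha hM0 hDk
  rw [← hY1] at hG
  have hMY : M ≤ Real.exp ((2 ^ y : ℕ) : ℝ) := by
    refine le_trans ?_ (two_pow_le_exp _)
    obtain ⟨x, hx⟩ : ∃ x : ℕ, x = 4 + t * (P + 1) + t := ⟨_, rfl⟩
    have e1 : Y1 ≤ (2 : ℝ) ^ x := by
      rw [hY1e, hx, pow_add, pow_add, mul_comm t (P + 1), pow_mul, hD'e]
      push_cast
      refine le_trans ?_ (le_mul_of_one_le_right (by positivity) (one_le_pow₀ one_le_two))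
      rw [show (2 : ℝ) ^ 4 = 16 by norm_num]
      refine mul_le_mul_of_nonneg_left (pow_le_pow_left₀ (by positivity) ?_ t) (by norm_num)
      rw [pow_succ]
      have : (1 : ℝ) ≤ 2 ^ P := one_le_pow₀ one_le_two
      linarith
    have e2 : (t : ℝ) * (D' : ℝ) ≤ (2 : ℝ) ^ x := by
      have h : t * D' ≤ 2 ^ x := by
        rw [hD'e]
        exact mul_two_pow_le.trans (Nat.pow_le_pow_right (by omega) (by rw [hx]; nlinarith))
      exact_mod_cast h
    have e3 : (1 : ℝ) ≤ 2 ^ x := one_le_pow₀ one_le_two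
    have e4 : P + x + 3 ≤ 2 ^ y := by
      have h' : P + x + 3 ≤ (3 * t + 8) * P := by
        have hP1 : 1 ≤ P := hP ▸ Nat.one_le_pow _ _ (by omega)
        rw [hx]; nlinarith
      have h'' : (3 * t + 8) * P ≤ 2 ^ (3 * t + 8 + L) := by rw [hP]; exact mul_two_pow_le
      have h''' : 2 ^ (3 * t + 8 + L) ≤ 2 ^ y := Nat.pow_le_pow_right (by omega) (by omega)
      omega
    have e5 : q ≤ (2 : ℝ) ^ (2 ^ y - 1) := by
      have hn : 3 * t + 21 ≤ 2 ^ (2 ^ y - 1) := hqn.trans (Nat.pow_le_pow_right (by omega) (by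
        have : y < 2 ^ y := Nat.lt_two_pow_self; omega))
      have : ((3 * t + 21 : ℕ) : ℝ) ≤ 2 ^ (2 ^ y - 1) := by exact_mod_cast hn
      push_cast at this
      rw [hq]; linarith
    have e6 : (D' : ℝ) * (t * D' + Y1 + 1) ≤ (2 : ℝ) ^ (2 ^ y - 1) := by
      calc _ ≤ (D' : ℝ) * (4 * 2 ^ x) :=
            mul_le_mul_of_nonneg_left (by linarith) (Nat.cast_nonneg _)
        _ = 2 ^ (P + x + 2) := by rw [hD'e]; push_cast; ring
        _ ≤ _ := pow_le_pow_right₀ one_le_two (by omega)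
    have e7 : (2 : ℝ) ^ (2 ^ y - 1) + 2 ^ (2 ^ y - 1) = 2 ^ (2 ^ y) := by
      rw [← mul_two, ← pow_succ]; congr 1; omega
    rw [hM]; linarith
  have hcostG : cost a G ≤ 2 * goal t := by
    refine hG.trans ?_
    have e1 : M * (1 / 2 : ℝ) ^ k ≤ Real.exp (-q) := by
      have hhalf : (1 / 2 : ℝ) ≤ Real.exp (-(1 / 2)) := by
        linarith [Real.add_one_le_exp (-(1 / 2) : ℝ)]
      calc M * (1 / 2 : ℝ) ^ k ≤ Real.exp ((2 ^ y : ℕ) : ℝ) * Real.exp (-(1 / 2)) ^ k :=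
            mul_le_mul hMY (pow_le_pow_left₀ (by norm_num) hhalf k) (by positivity)
              (Real.exp_pos _).le
        _ = Real.exp (((2 ^ y : ℕ) : ℝ) + (k : ℝ) * -(1 / 2)) := by
            rw [← Real.exp_nat_mul, ← Real.exp_add]
        _ ≤ _ := by
            refine Real.exp_le_exp.2 ?_
            have : (k : ℝ) = 4 * ((2 ^ y : ℕ) : ℝ) := by rw [hk]; push_cast; ring
            linarith
    have e2 : Real.exp (-M) * volBound D' t Y1 ≤ Real.exp (-q) := by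
      refine le_trans (mul_le_mul_of_nonneg_left
        (volBound_le_exp D' t (by rw [hY1e]; positivity)) (Real.exp_pos _).le) ?_
      rw [← Real.exp_add]
      refine Real.exp_le_exp.2 ?_
      rw [hM]; linarith
    rw [hgoal]; linarith
  -- the bottom
  have hν4 : Wt (fun O => 4 * ext ν a O) t :=
    ⟨fun O => mul_nonneg (by norm_num) (ext_nonneg hν ha O),
      fun O hO => by simp [(ext_wt hν ha).size O hO]⟩
  have hw4 : wt (fun O => 4 * ext ν a O) a ≤ 4 * (2 ^ t * wt ν a) := by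
    have : wt (fun O => 4 * ext ν a O) a = 4 * wt (ext ν a) a := by
      simp only [wt, mul_assoc]; rw [mul_sum]
    rw [this]; linarith [wt_ext_le hν ha]
  obtain ⟨g, hg⟩ : ∃ g : ℕ, g = 2 * t * (d + 1) + 5 := ⟨_, rfl⟩
  obtain ⟨M0, hM0def⟩ : ∃ M0 : ℝ, M0 = ((2 ^ d : ℕ) : ℝ) * g + q := ⟨_, rfl⟩
  obtain ⟨H, hH, hHc⟩ := bottom_cover (M := M0) (D := 2 ^ d) hν4 ha
    (by rw [hM0def]; exact add_nonneg (by positivity) hq0)
  have hbot : HasCover (fun O => 4 * ext ν a O) a (1 / 2) (2 ^ d) (2 * goal t) := by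
    refine ⟨H, hH.trans ?_, hHc⟩
    have hvol : volBound (2 ^ d) t (1 / baseEta (2 ^ d) t)
        ≤ Real.exp (((2 ^ d : ℕ) : ℝ) * g) := by
      set Dn : ℕ := 2 ^ d with hDn
      have hin : max 1 (((Dn : ℝ) + 1) ^ t * (1 / baseEta Dn t))
          ≤ Real.exp ((2 * t * (d + 1) + 4 : ℕ) : ℝ) := by
        refine max_le (Real.one_le_exp (Nat.cast_nonneg _)) (le_trans ?_ (two_pow_le_exp _))
        unfold baseEta
        rw [one_div_one_div, pow_add, mul_comm (2 * t) (d + 1), pow_mul, two_mul, pow_add,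
          show (2 : ℝ) ^ 4 = 16 by norm_num]
        have : (Dn : ℝ) + 1 ≤ 2 ^ (d + 1) := by
          rw [hDn]; push_cast; rw [pow_succ]
          linarith [one_le_pow₀ (n := d) (one_le_two (α := ℝ))]
        have := pow_le_pow_left₀ (by positivity) this t
        calc ((Dn : ℝ) + 1) ^ t * (16 * ((Dn : ℝ) + 1) ^ t)
            = ((Dn : ℝ) + 1) ^ t * ((Dn : ℝ) + 1) ^ t * 16 := by ring
          _ ≤ _ := by gcongr
      calc volBound Dn t (1 / baseEta Dn t)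
          ≤ Real.exp (Dn : ℝ) * Real.exp ((2 * t * (d + 1) + 4 : ℕ) : ℝ) ^ Dn :=
            mul_le_mul (natCast_add_one_le_exp Dn) (pow_le_pow_left₀
              (le_trans zero_le_one (le_max_left _ _)) hin Dn)
              (pow_nonneg (le_trans zero_le_one (le_max_left _ _)) _) (Real.exp_pos _).le
        _ = _ := by rw [← Real.exp_nat_mul, ← Real.exp_add, hg]; push_cast; ring_nf
    have e2 : Real.exp (-M0) * volBound (2 ^ d) t (1 / baseEta (2 ^ d) t) ≤ Real.exp (-q) := by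
      refine le_trans (mul_le_mul_of_nonneg_left hvol (Real.exp_pos _).le) ?_
      rw [← Real.exp_add]
      refine Real.exp_le_exp.2 ?_
      rw [hM0def]; linarith
    have e1 : (3 * M0 + 2 ^ t) * wt (fun O => 4 * ext ν a O) a ≤ Real.exp (-q) := by
      obtain ⟨z, hz⟩ : ∃ z : ℕ, z = 2 * d + 4 * t + 10 := ⟨_, rfl⟩
      have a1 : 3 * M0 + 2 ^ t ≤ (2 : ℝ) ^ (z + 3) := by
        have n1 : 2 ^ d * g ≤ 2 ^ z := by
          have hg' : g ≤ 2 ^ (d + 4 * t + 10) := by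
            have e1 : d + 1 ≤ 2 ^ d := Nat.lt_two_pow_self
            have e2 : t ≤ 2 ^ t := Nat.lt_two_pow_self.le
            have e3 : 2 ^ (d + 4 * t + 10) = 2 ^ d * 2 ^ (4 * t) * 2 ^ 10 := by
              rw [pow_add, pow_add]
            have e4 : 2 ^ t ≤ 2 ^ (4 * t) := Nat.pow_le_pow_right (by omega) (by omega)
            have e5 : 1 ≤ 2 ^ d * 2 ^ (4 * t) :=
              Nat.mul_le_mul (Nat.one_le_pow d 2 (by omega)) (Nat.one_le_pow (4 * t) 2 (by omega))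
            have e6 := Nat.mul_le_mul e1 (e2.trans e4)
            rw [e3, hg]; nlinarith
          rw [hz, show 2 * d + 4 * t + 10 = d + (d + 4 * t + 10) by ring, pow_add]
          exact Nat.mul_le_mul_left _ hg'
        have n2 : 3 * t + 20 ≤ 2 ^ z :=
          le_trans (le_trans (by omega) hqn) (Nat.pow_le_pow_right (by omega) (by omega))
        have n3 : 2 ^ t ≤ 2 ^ z := Nat.pow_le_pow_right (by omega) (by omega)
        have n4 : 3 * (2 ^ d * g + (3 * t + 20)) + 2 ^ t ≤ 2 ^ (z + 3) := by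
          have : 2 ^ (z + 3) = 2 ^ z * 8 := by rw [pow_add]; norm_num
          omega
        have : ((3 * (2 ^ d * g + (3 * t + 20)) + 2 ^ t : ℕ) : ℝ) ≤ ((2 ^ (z + 3) : ℕ) : ℝ) := by
          exact_mod_cast n4
        push_cast at this
        rw [hM0def, hq]; push_cast; linarith
      have a2 : Real.exp (2 * t : ℝ) ≤ (2 : ℝ) ^ (4 * t) := by
        rw [show (2 * t : ℝ) = ((2 * t : ℕ) : ℝ) * 1 by push_cast; ring, Real.exp_nat_mul,
          show 4 * t = 2 * (2 * t) by ring, pow_mul (2 : ℝ) 2 (2 * t)]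
        have he : Real.exp 1 ≤ (2 : ℝ) ^ 2 := by norm_num; linarith [Real.exp_one_lt_three]
        exact pow_le_pow_left₀ (Real.exp_pos _).le he _
      have a3 : (2 : ℝ) ^ (-(2 * (3 * t + 20) : ℕ) : ℤ) ≤ Real.exp (-q) := by
        rw [zpow_neg, zpow_natCast, Real.exp_neg]
        refine inv_anti₀ (Real.exp_pos _) ?_
        rw [show q = ((3 * t + 20 : ℕ) : ℝ) * 1 by rw [hq]; push_cast; ring, Real.exp_nat_mul,
          pow_mul]
        have he : Real.exp 1 ≤ (2 : ℝ) ^ 2 := by norm_num; linarith [Real.exp_one_lt_three]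
        exact pow_le_pow_left₀ (Real.exp_pos _).le he _
      refine le_trans ?_ a3
      calc (3 * M0 + 2 ^ t) * wt (fun O => 4 * ext ν a O) a
          ≤ 2 ^ (z + 3) * (4 * (2 ^ t * (2 ^ (4 * t) * ((1 / 2 : ℝ) ^ expo) ^ t))) := by
            refine mul_le_mul a1 (hw4.trans ?_) (wt_nonneg hν4 ha) (by positivity)
            refine mul_le_mul_of_nonneg_left (mul_le_mul_of_nonneg_left
              (hw.trans (mul_le_mul_of_nonneg_right a2 (by positivity))) (by positivity))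
              (by norm_num)
        _ = 2 ^ (z + 5 + 5 * t) / 2 ^ (expo * t) := by
            rw [← pow_mul, one_div, inv_pow]; ring
        _ ≤ _ := by
            rw [zpow_neg, zpow_natCast, div_le_iff₀ (by positivity), ← div_eq_inv_mul,
              le_div_iff₀ (by positivity), ← pow_add]
            refine pow_le_pow_right₀ one_le_two ?_
            rw [hz, hd, hy, hLt, expo_def]; omega
    rw [hgoal]; linarith
  obtain ⟨C, hC, hCc⟩ := hasCover_descend ha hbot ⟨G, hcostG, hGc⟩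
  exact ⟨C, hC.trans (le_of_eq (by ring)),
    fun U hU hm => hCc U hU (le_trans (by norm_num) ((thr_ge 0).trans hm))⟩

/-- Covers at every level. -/
theorem chain_cover {a : ℝ} {t : ℕ} (ha : 0 ≤ a) (ht : 1 ≤ t) (i : ℕ) :
    ∀ ν : Finset α → ℝ, Wt ν t →
      wt ν a ≤ Real.exp (2 * t / ((i : ℝ) + 1)) * ((1 / 2 : ℝ) ^ expo) ^ t →
      HasCover ν a (thr i) (cap t i) (goal t * (6 - 2 * (1 / 2) ^ i)) := by
  induction i with
  | zero =>
    intro ν hν hw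
    have := base_cover hν ha ht (hw.trans (le_of_eq (by simp)))
    rwa [show goal t * (6 - 2 * (1 / 2 : ℝ) ^ 0) = 4 * goal t by ring]
  | succ i ih =>
    intro ν hν hw
    obtain ⟨ν', hν', hw', hdown⟩ := level_down hν ha ht i
    have hi : (0 : ℝ) ≤ i := Nat.cast_nonneg i
    have := hdown _ (ih ν' hν' (by
      refine hw'.trans (le_trans (mul_le_mul_of_nonneg_left hw (Real.exp_pos _).le) (le_of_eq ?_))
      rw [← mul_assoc, ← Real.exp_add]
      congr 2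
      push_cast
      field_simp
      ring))
    rwa [show goal t * (6 - 2 * (1 / 2 : ℝ) ^ (i + 1))
      = goal t * (1 / 2) ^ i + goal t * (6 - 2 * (1 / 2) ^ i) by ring]

/-- The normal form of the theorem. -/
theorem cover_of_small_wt {ν : Finset α → ℝ} {a : ℝ} {t : ℕ} (hν : Wt ν t) (ha : 0 ≤ a)
    (ht : 1 ≤ t) (hw : wt ν a ≤ ((1 / 2 : ℝ) ^ expo) ^ t) :
    ∃ G : Finset (Finset α), cost a G ≤ 6 * goal t ∧
      ∀ U : Finset α, 1 ≤ mass ν U → Covered G U := by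
  set i : ℕ := Fintype.card α
  obtain ⟨G, hG, hGc⟩ := chain_cover (a := a) (t := t) ha ht i ν hν (hw.trans
    (le_mul_of_one_le_left (by positivity) (Real.one_le_exp (by positivity))))
  refine ⟨G, hG.trans ?_, fun U hm => hGc U ?_ ((thr_le i).trans (by linarith))⟩
  · have h0 : 0 ≤ goal t := (Real.exp_pos _).le
    have : 0 ≤ (1 / 2 : ℝ) ^ i := by positivity
    nlinarith
  · refine le_trans (card_le_univ U) ?_
    have h1 : i ≤ lev t i := by
      rw [lev_def]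
      have : i + 2 ≤ (i + 2) ^ 6 := Nat.le_self_pow (by omega) _
      nlinarith
    rw [cap_def]
    exact le_trans h1 (le_trans Nat.lt_two_pow_self.le Nat.lt_two_pow_self.le)

end Vale.Agent.P034.Full
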