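import Vale.Agent.P034.Full.Level

/-!
The cover produced at one level of the descent.
-/

open Finset

namespace Vale.Agent.P034.Full

set_option linter.unusedSectionVars false

variable {α : Type*} [Fintype α] [DecidableEq α]

/-- The price bound for sets of size at most `D` spanned by heavy edges. -/
noncomputable def volBound (D t : ℕ) (Y : ℝ) : ℝ :=
  ((D : ℝ) + 1) * (max 1 (((D : ℝ) + 1) ^ t * Y)) ^ D

theorem volBound_nonneg (D t : ℕ) (Y : ℝ) : 0 ≤ volBound D t Y :=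
  mul_nonneg (by positivity) (pow_nonneg (le_trans zero_le_one (le_max_left _ _)) _)

/-- Composition of covers. -/
theorem hasCover_descend {ν ν' : Finset α → ℝ} {a θ θ' : ℝ} {D D' : ℕ} {c c' : ℝ} (ha : 0 ≤ a)
    (h' : HasCover ν' a θ' D c')
    (hstep : ∃ G : Finset (Finset α), cost a G ≤ c ∧ ∀ U : Finset α, U.card ≤ D' → θ ≤ mass ν U →
      Covered G U ∨ ∃ Z ⊆ U, Z.card ≤ D ∧ θ' ≤ mass ν' Z) :
    HasCover ν a θ D' (c + c') := by
  obtain ⟨H, hH, hHc⟩ := h'
  obtain ⟨G, hG, hGc⟩ := hstep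
  refine ⟨G ∪ H, (cost_union_le ha G H).trans (add_le_add hG hH), fun U hU hm => ?_⟩
  rcases hGc U hU hm with ⟨S, hS, hSU⟩ | ⟨Z, hZU, hZ, hZm⟩
  · exact ⟨S, mem_union_left _ hS, hSU⟩
  · obtain ⟨S, hS, hSZ⟩ := hHc Z hZ hZm
    exact ⟨S, mem_union_right _ hS, hSZ.trans hZU⟩

/-- One round: the sets that are good at round `r` are covered cheaply. -/
theorem round_step {ν : Finset α → ℝ} {a A σ B M η : ℝ} {t u r N k D' : ℕ} {τ : ℕ → ℝ}
    (hν : Wt ν t) (ha : 0 ≤ a) (hA : 0 < A) (hσ : 0 ≤ σ) (hM : 0 ≤ M) (hη : 0 < η)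
    (hB : 0 ≤ B) (hτ : 0 < τ r) (𝒱 : Finset (Finset α))
    (hcard : ∀ V ∈ 𝒱, V.card ≤ D')
    (hspan : ∀ V ∈ 𝒱, ∀ x ∈ V, ∃ T, T ⊆ V ∧ η ≤ ν T ∧ x ∈ T)
    (hext : ∀ V ∈ 𝒱, ∀ O, O ⊆ V → O.card ≤ t → ext ν a O ≤ B)
    (hZ : ∀ V ∈ 𝒱, (lowUnion ν a τ t r V).card ≤ N)
    (adm : Finset α → Finset (Finset α))
    (hmass : ∀ V ∈ 𝒱, A ≤ ∑ T ∈ adm (lowUnion ν a τ t r V) with T ⊆ V, ν T)
    (hgood : ∀ V ∈ 𝒱, ∀ P, lowUnion ν a τ t r V ⊆ P → P ⊆ V → P.card ≤ N + k * t →
      ∑ T ∈ adm (lowUnion ν a τ t r V), ν T * a ^ (T \ P).card ≤ σ) :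
    ∃ G : Finset (Finset α), (∀ V ∈ 𝒱, Covered G V) ∧
      cost a G ≤ M * (σ / A) ^ k * volBound N t (2 ^ t * B / τ r)
        + Real.exp (-M) * volBound D' t (B / η) := by
  classical
  set 𝒵 := 𝒱.image (lowUnion ν a τ t r)
  have hμ : ∀ Z : Finset α, _ := fun Z => tuple_weights hν ha hσ hA.le Z (adm Z) k
  choose μ hμ0 hμc hμh using hμ
  let q : Finset α → ℝ := fun S => M / A ^ k * ∑ Z ∈ 𝒵, μ Z S
  have hq : ∀ S, 0 ≤ q S := fun S =>
    mul_nonneg (div_nonneg hM (pow_nonneg hA.le _)) (sum_nonneg fun Z _ => hμ0 Z S)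
  have hvolZ : cost a 𝒵 ≤ volBound N t (2 ^ t * B / τ r) := by
    refine cost_spanned_le (ext_wt hν ha) ha hτ (mul_nonneg (by positivity) hB) 𝒵 ?_ ?_ ?_
    · intro Z hZ'
      obtain ⟨V, hV, rfl⟩ := mem_image.1 hZ'
      exact hZ V hV
    · intro Z hZ' x hx
      obtain ⟨V, -, rfl⟩ := mem_image.1 hZ'
      obtain ⟨O, hO, hxO⟩ := mem_biUnion.1 hx
      exact ⟨O, fun y hy => mem_biUnion.2 ⟨O, hO, hy⟩, (mem_filter.1 hO).2.2, hxO⟩
    · intro Z hZ' O hO hOt
      obtain ⟨V, hV, rfl⟩ := mem_image.1 hZ'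
      exact (ext_ext_le hν ha O).trans (mul_le_mul_of_nonneg_left
        (hext V hV O (hO.trans (lowUnion_subset r V)) hOt) (by positivity))
  have hvolV : cost a 𝒱 ≤ volBound D' t (B / η) :=
    cost_spanned_le hν ha hη hB 𝒱 hcard hspan hext
  have hhit : ∀ V ∈ 𝒱, M ≤ mass q V := by
    intro V hV
    set Z := lowUnion ν a τ t r V with hZdef
    have hZmem : Z ∈ 𝒵 := mem_image.2 ⟨V, hV, rfl⟩
    have h1 : A ^ k ≤ mass (μ Z) V := by
      refine le_trans (hμh Z V (lowUnion_subset r V) (hmass V hV) fun P h1 h2 h3 =>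
        hgood V hV P h1 h2 (h3.trans (Nat.add_le_add_right (hZ V hV) _))) ?_
      exact sum_le_sum_of_subset_of_nonneg (filter_subset _ _) fun P _ _ => hμ0 Z P
    have h2 : mass q V = M / A ^ k * ∑ Z' ∈ 𝒵, mass (μ Z') V := by
      simp only [q, mass]
      rw [← mul_sum, sum_comm]
    rw [h2]
    calc M = M / A ^ k * A ^ k := (div_mul_cancel₀ M (pow_ne_zero _ hA.ne')).symm
      _ ≤ _ := mul_le_mul_of_nonneg_left (h1.trans (single_le_sum (f := fun Z' => mass (μ Z') V)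
          (fun Z' _ => sum_nonneg fun P _ => hμ0 Z' P) hZmem))
          (div_nonneg hM (pow_nonneg hA.le _))
  obtain ⟨G, hG, hGc⟩ := sample_cover ha q hq 𝒱 hhit
  refine ⟨G, hG, hGc.trans (add_le_add ?_ (mul_le_mul_of_nonneg_left hvolV (Real.exp_pos _).le))⟩
  have hw : wt q a = M / A ^ k * ∑ Z ∈ 𝒵, wt (μ Z) a := by
    simp only [q, wt, mul_assoc, sum_mul]
    rw [← mul_sum, sum_comm]
  rw [hw]
  calc M / A ^ k * ∑ Z ∈ 𝒵, wt (μ Z) a ≤ M / A ^ k * (σ ^ k * cost a 𝒵) := by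
        refine mul_le_mul_of_nonneg_left ?_ (div_nonneg hM (pow_nonneg hA.le _))
        rw [cost, mul_sum]
        exact sum_le_sum fun Z _ => hμc Z
    _ = M * (σ / A) ^ k * cost a 𝒵 := by rw [div_pow]; ring
    _ ≤ _ := mul_le_mul_of_nonneg_left hvolZ (mul_nonneg hM (pow_nonneg (div_nonneg hσ hA.le) _))

/-- The numerical requirements on one level. -/
structure LevelData (t u R D D' : ℕ) (τ : ℕ → ℝ) (N k : ℕ → ℕ) (δ B : ℝ) : Prop where
  δpos : 0 < δ
  δle : δ ≤ 1 / 2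
  Bone : 1 ≤ B
  Rpos : 0 < R
  Rbig : 64 * t ≤ δ ^ 2 * R * (u + 1)
  τpos : ∀ r ≤ R, 0 < τ r
  τanti : ∀ r < R, τ (r + 1) ≤ τ r
  Nbig : ∀ r < R, B < N r * τ r
  tiny : ∀ r < R, ((N r * t + k r * t : ℕ) + 1 : ℝ) ^ t * τ (r + 1) ≤ δ / 16
  room : t + ∑ r ∈ range R, (N r * t + k r * t) ≤ D

/-- The weight inside `V` of the edges that are unstable at round `r`. -/
noncomputable def unstableMass (ν : Finset α → ℝ) (a : ℝ) (τ : ℕ → ℝ) (u r : ℕ)
    (V : Finset α) : ℝ :=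
  open Classical in ∑ T ∈ V.powerset with ¬Stable ν a τ u r T, ν T

/-- A set without an heir has bounded extension weights. -/
theorem ext_le_of_noHeir {ν : Finset α → ℝ} {a θ' B : ℝ} {t u R D : ℕ} {τ : ℕ → ℝ}
    (hν : Wt ν t) (ha : 0 ≤ a) (hB : 0 < B) (hθ'1 : θ' ≤ 1) (htD : t ≤ D) {V O : Finset α}
    (hVn : ∀ Z ⊆ V, Z.card ≤ D → mass (child ν a τ u R B) Z < θ')
    (hO : O ⊆ V) (hOt : O.card ≤ t) : ext ν a O ≤ B := by
  have hchild := child_wt (u := u) (R := R) (τ := τ) hν ha hB.le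
  have h1 := hVn O hO (hOt.trans htD)
  have h2 : ext ν a O / B ≤ child ν a τ u R B O :=
    le_add_of_nonneg_left (div_nonneg (sum_nonneg fun r _ => part_nonneg hν ha r O)
      (Nat.cast_nonneg _))
  have h3 := single_le_mass hchild.nn (T := O) subset_rfl
  rw [← div_le_one (by linarith)]
  linarith

/-- A set without an heir has small low sets. -/
theorem lowUnion_card_le {ν : Finset α → ℝ} {a θ' B : ℝ} {t u R D n r : ℕ} {τ : ℕ → ℝ}
    (hν : Wt ν t) (ha : 0 ≤ a) (hB : 0 < B) (hθ'1 : θ' ≤ 1) (hn : B < n * τ r) (hnD : n * t ≤ D)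
    {V : Finset α} (hVn : ∀ Z ⊆ V, Z.card ≤ D → mass (child ν a τ u R B) Z < θ') :
    (lowUnion ν a τ t r V).card ≤ n * t := by
  classical
  have hchild := child_wt (u := u) (R := R) (τ := τ) hν ha hB.le
  set L := V.powerset.filter fun O => O.card ≤ t ∧ τ r ≤ ext ν a O
  by_cases hL : L.card ≤ n
  · calc (lowUnion ν a τ t r V).card ≤ ∑ O ∈ L, O.card := card_biUnion_le
      _ ≤ ∑ O ∈ L, t := sum_le_sum fun O hO => (mem_filter.1 hO).2.1
      _ = L.card * t := by rw [sum_const, smul_eq_mul]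
      _ ≤ n * t := Nat.mul_le_mul_right t hL
  · exfalso
    obtain ⟨L', hL', hL'c⟩ := exists_subset_card_eq (le_of_not_ge hL)
    set Z := L'.biUnion id
    have hZV : Z ⊆ V := fun x hx => by
      obtain ⟨O, hO, hxO⟩ := mem_biUnion.1 hx
      exact mem_powerset.1 (mem_filter.1 (hL' hO)).1 hxO
    have hZc : Z.card ≤ D := by
      calc Z.card ≤ ∑ O ∈ L', O.card := card_biUnion_le
        _ ≤ ∑ O ∈ L', t := sum_le_sum fun O hO => (mem_filter.1 (hL' hO)).2.1
        _ = n * t := by rw [sum_const, smul_eq_mul, hL'c]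
        _ ≤ D := hnD
    have hlt := hVn Z hZV hZc
    have hge : (n : ℝ) * τ r / B ≤ mass (child ν a τ u R B) Z := by
      calc (n : ℝ) * τ r / B = ∑ O ∈ L', τ r / B := by
            rw [sum_const, nsmul_eq_mul, hL'c]; ring
        _ ≤ ∑ O ∈ L', child ν a τ u R B O := sum_le_sum fun O hO => by
            refine le_trans (div_le_div_of_nonneg_right (mem_filter.1 (hL' hO)).2.2
              (by linarith)) ?_
            exact le_add_of_nonneg_left (div_nonneg (sum_nonneg fun r _ => part_nonneg hν ha r O)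
              (Nat.cast_nonneg _))
        _ ≤ mass (child ν a τ u R B) Z := by
            refine sum_le_sum_of_subset_of_nonneg (fun O hO => mem_powerset.2 fun x hx =>
              mem_biUnion.2 ⟨O, hO, hx⟩) fun O _ _ => hchild.nn O
    have : 1 < (n : ℝ) * τ r / B := by
      rw [lt_div_iff₀ (by linarith), one_mul]; exact hn
    linarith

/-- Some round is good for a set without an heir. -/
theorem exists_good_round {ν : Finset α → ℝ} {a θ' δ B : ℝ} {t u R D : ℕ} {τ : ℕ → ℝ}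
    {cap : ℕ → ℕ} (hν : Wt ν t) (ha : 0 ≤ a) (hB : 0 < B) (hθ'pos : 0 < θ') (δpos : 0 < δ)
    (δle : δ ≤ 1 / 2) (Rpos : 0 < R) (Rbig : 64 * t ≤ δ ^ 2 * R * (u + 1))
    (τanti : ∀ r < R, τ (r + 1) ≤ τ r) (room : ∑ r ∈ range R, cap r ≤ D) {V : Finset α}
    (hm : 0 < mass ν V) (hVn : ∀ Z ⊆ V, Z.card ≤ D → mass (child ν a τ u R B) Z < θ') :
    ∃ r < R, unstableMass ν a τ u r V ≤ δ / 8 * mass ν V ∧
      ∀ P ⊆ V, P.card ≤ cap r → mass (part ν a τ u r) P ≤ (1 + δ / 4) * θ' := by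
  classical
  by_contra hcon
  push Not at hcon
  set Gd := (range R).filter fun r => unstableMass ν a τ u r V ≤ δ / 8 * mass ν V
  have hP : ∀ r, ∃ P ⊆ V, r ∈ Gd →
      P.card ≤ cap r ∧ (1 + δ / 4) * θ' < mass (part ν a τ u r) P := by
    intro r
    by_cases hr : r ∈ Gd
    · obtain ⟨hr1, hr2⟩ := mem_filter.1 hr
      obtain ⟨P, hPV, hPc, hPm⟩ := hcon r (mem_range.1 hr1) hr2
      exact ⟨P, hPV, fun _ => ⟨hPc, hPm⟩⟩
    · exact ⟨∅, empty_subset _, fun h => absurd h hr⟩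
  choose P hPV hPr using hP
  set Q := Gd.biUnion P
  have hQV : Q ⊆ V := fun x hx => by
    obtain ⟨r, -, hxr⟩ := mem_biUnion.1 hx
    exact hPV r hxr
  have hQc : Q.card ≤ D := by
    calc Q.card ≤ ∑ r ∈ Gd, (P r).card := card_biUnion_le
      _ ≤ ∑ r ∈ Gd, cap r := sum_le_sum fun r hr => (hPr r hr).1
      _ ≤ ∑ r ∈ range R, cap r := sum_le_sum_of_subset (filter_subset _ _)
      _ ≤ D := by omega
  have hQm := hVn Q hQV hQc
  have h1 : (Gd.card : ℝ) * ((1 + δ / 4) * θ') ≤ ∑ r ∈ range R, mass (part ν a τ u r) Q := by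
    calc (Gd.card : ℝ) * ((1 + δ / 4) * θ') = ∑ r ∈ Gd, (1 + δ / 4) * θ' := by
          rw [sum_const, nsmul_eq_mul]
      _ ≤ ∑ r ∈ Gd, mass (part ν a τ u r) Q := sum_le_sum fun r hr =>
          (hPr r hr).2.le.trans (mass_mono (part_nonneg hν ha r)
            fun x hx => mem_biUnion.2 ⟨r, hr, hx⟩)
      _ ≤ _ := sum_le_sum_of_subset_of_nonneg (filter_subset _ _) fun r _ _ =>
          sum_nonneg fun O _ => part_nonneg hν ha r O
  have h2 : (∑ r ∈ range R, mass (part ν a τ u r) Q) / R ≤ mass (child ν a τ u R B) Q := by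
    rw [mass, show (∑ r ∈ range R, mass (part ν a τ u r) Q) / R
      = ∑ O ∈ Q.powerset, (∑ r ∈ range R, part ν a τ u r O) / R by
        simp only [mass, sum_div]; rw [sum_comm]]
    exact sum_le_sum fun O _ =>
      le_add_of_nonneg_right (div_nonneg (ext_nonneg hν ha O) (by linarith))
  have h3 : (((range R).filter fun r => ¬unstableMass ν a τ u r V ≤ δ / 8 * mass ν V).card : ℝ)
      * (δ / 8 * mass ν V) * (u + 1) ≤ t * mass ν V := by
    calc (((range R).filter fun r => ¬unstableMass ν a τ u r V ≤ δ / 8 * mass ν V).card : ℝ)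
          * (δ / 8 * mass ν V) * (u + 1)
        ≤ (∑ r ∈ range R, unstableMass ν a τ u r V) * (u + 1) := by
          refine mul_le_mul_of_nonneg_right ?_ (by positivity)
          rw [← nsmul_eq_mul, ← sum_const]
          refine le_trans (sum_le_sum fun r hr => (not_le.1 (mem_filter.1 hr).2).le)
            (sum_le_sum_of_subset_of_nonneg (filter_subset _ _) fun r _ _ =>
              sum_nonneg fun T _ => hν.nn T)
      _ = ∑ T ∈ V.powerset,
            (((range R).filter fun r => ¬Stable ν a τ u r T).card : ℝ) * (u + 1) * ν T := by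
          simp only [unstableMass, sum_filter]
          rw [sum_comm, sum_mul]
          refine sum_congr rfl fun T _ => ?_
          rw [← sum_filter, sum_const, nsmul_eq_mul]; ring
      _ ≤ ∑ T ∈ V.powerset, (t : ℝ) * ν T := by
          refine sum_le_sum fun T _ => ?_
          by_cases hT : T.card ≤ t
          · refine mul_le_mul_of_nonneg_right ?_ (hν.nn T)
            exact_mod_cast unstable_count τanti hT
          · simp [hν.size T (by omega)]
      _ = _ := by rw [mass, mul_sum]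
  have h4 := card_filter_add_card_filter_not (s := range R)
    (fun r => unstableMass ν a τ u r V ≤ δ / 8 * mass ν V)
  rw [card_range] at h4
  set nb := ((range R).filter fun r => ¬unstableMass ν a τ u r V ≤ δ / 8 * mass ν V).card
  have h5 : (nb : ℝ) ≤ δ / 8 * R := by
    have h3' : (nb : ℝ) * (δ / 8) * (u + 1) ≤ t := le_of_mul_le_mul_right (a := mass ν V)
      (by linarith only [h3]) hm
    have h6 : (nb : ℝ) * (δ / 8) * (u + 1) ≤ δ / 8 * R * (δ / 8) * (u + 1) := by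
      linarith only [h3', Rbig]
    exact le_of_mul_le_mul_right (le_of_mul_le_mul_right h6 (by positivity)) (by positivity)
  have h7 : (Gd.card : ℝ) + nb = R := by exact_mod_cast h4
  have h8 : (1 - δ / 8) * R * ((1 + δ / 4) * θ') ≤ (Gd.card : ℝ) * ((1 + δ / 4) * θ') :=
    mul_le_mul_of_nonneg_right (by linarith) (mul_nonneg (by linarith) hθ'pos.le)
  have h9 : (R : ℝ) * θ' ≤ (1 - δ / 8) * R * ((1 + δ / 4) * θ') := by
    have : 1 ≤ (1 - δ / 8) * (1 + δ / 4) := by nlinarith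
    nlinarith [mul_le_mul_of_nonneg_left this (mul_nonneg (Nat.cast_nonneg R) hθ'pos.le)]
  rw [div_le_iff₀ (by exact_mod_cast Rpos)] at h2
  nlinarith [mul_lt_mul_of_pos_right hQm (show (0 : ℝ) < R by exact_mod_cast Rpos)]

/-- The cover at one level. -/
theorem level_step {ν : Finset α → ℝ} {a θ δ B M : ℝ} {t u R D D' : ℕ} {τ : ℕ → ℝ}
    {N k : ℕ → ℕ} (hν : Wt ν t) (ha : 0 ≤ a) (hθ : 1 / 2 ≤ θ) (hθ1 : θ ≤ 1) (hM : 0 ≤ M)
    (h : LevelData t u R D D' τ N k δ B) :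
    ∃ G : Finset (Finset α),
      cost a G ≤ ∑ r ∈ range R, (M * (1 - δ / 4) ^ k r * volBound (N r * t) t (2 ^ t * B / τ r)
        + Real.exp (-M) * volBound D' t (B / (δ / (16 * ((D' : ℝ) + 1) ^ t)))) ∧
      ∀ U : Finset α, U.card ≤ D' → θ ≤ mass ν U →
        Covered G U ∨ ∃ Z ⊆ U, Z.card ≤ D ∧ (1 - δ) * θ ≤ mass (child ν a τ u R B) Z := by
  classical
  obtain ⟨δpos, δle, Bone, Rpos, Rbig, τpos, τanti, Nbig, tiny, room⟩ := h
  set η : ℝ := δ / (16 * ((D' : ℝ) + 1) ^ t) with hηdef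
  have hη : 0 < η := by positivity
  set A : ℝ := (1 - δ / 4) * θ with hAdef
  set σ : ℝ := (1 + δ / 4) * ((1 - δ) * θ) + δ / 16 with hσdef
  have hA : 0 < A := mul_pos (by linarith) (by linarith)
  have hσ0 : 0 ≤ σ := by
    have : 0 ≤ (1 + δ / 4) * ((1 - δ) * θ) :=
      mul_nonneg (by linarith) (mul_nonneg (by linarith) (by linarith))
    rw [hσdef]; linarith
  have hσA : σ / A ≤ 1 - δ / 4 := by
    rw [div_le_iff₀ hA, hσdef, hAdef]
    nlinarith [mul_nonneg δpos.le (sub_nonneg.2 hθ), mul_nonneg (sq_nonneg δ) (by linarith : 0 ≤ θ)]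
  let θ' : ℝ := (1 - δ) * θ
  have hθ'pos : 0 < θ' := mul_pos (by linarith) (by linarith)
  have hθ'1 : θ' ≤ 1 := by
    have : (1 - δ) * θ ≤ 1 * 1 := mul_le_mul (by linarith) hθ1 (by linarith) (by linarith)
    simpa [θ'] using this
  let badMass : ℕ → Finset α → ℝ := fun r V => unstableMass ν a τ u r V
  let admOf : ℕ → Finset α → Finset (Finset α) := fun r Z =>
    univ.filter fun T => Stable ν a τ u r T ∧ kern ν a τ r T ⊆ Z
  let NoHeir : Finset α → Prop := fun V =>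
    ∀ Z ⊆ V, Z.card ≤ D → mass (child ν a τ u R B) Z < θ'
  let 𝒱 := (univ : Finset (Finset α)).filter fun V => V.card ≤ D' ∧
    (∀ x ∈ V, ∃ T, T ⊆ V ∧ η ≤ ν T ∧ x ∈ T) ∧ θ - δ / 16 ≤ mass ν V ∧ NoHeir V
  let 𝒱r : ℕ → Finset (Finset α) := fun r => 𝒱.filter fun V =>
    badMass r V ≤ δ / 8 * mass ν V ∧
    ∀ P ⊆ V, P.card ≤ N r * t + k r * t → mass (part ν a τ u r) P ≤ (1 + δ / 4) * θ'
  have htD : t ≤ D := le_trans (Nat.le_add_right _ _) room
  have hext : ∀ V ∈ 𝒱, ∀ O, O ⊆ V → O.card ≤ t → ext ν a O ≤ B := fun V hV O hO hOt =>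
    ext_le_of_noHeir hν ha (by linarith) hθ'1 htD (mem_filter.1 hV).2.2.2.2 hO hOt
  have hlow : ∀ r < R, ∀ V ∈ 𝒱, (lowUnion ν a τ t r V).card ≤ N r * t := fun r hr V hV =>
    lowUnion_card_le hν ha (by linarith) hθ'1 (Nbig r hr) (by
      have := single_le_sum (f := fun r => N r * t + k r * t) (fun _ _ => Nat.zero_le _)
        (mem_range.2 hr)
      omega) (mem_filter.1 hV).2.2.2.2
  have hgood : ∀ V ∈ 𝒱, ∃ r < R, V ∈ 𝒱r r := by
    intro V hV
    obtain ⟨-, -, -, hVm, hVn⟩ := mem_filter.1 hV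
    obtain ⟨r, hr, h1, h2⟩ := exists_good_round (cap := fun r => N r * t + k r * t) hν ha
      (by linarith : (0 : ℝ) < B) hθ'pos δpos δle Rpos Rbig τanti (by omega) (by linarith) hVn
    exact ⟨r, hr, mem_filter.2 ⟨hV, h1, h2⟩⟩
  have hround : ∀ r, ∃ G : Finset (Finset α), r < R → (∀ V ∈ 𝒱r r, Covered G V) ∧
      cost a G ≤ M * (1 - δ / 4) ^ k r * volBound (N r * t) t (2 ^ t * B / τ r)
        + Real.exp (-M) * volBound D' t (B / η) := by
    intro r
    by_cases hr : r < R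
    swap
    · exact ⟨∅, fun h => absurd h hr⟩
    have hsub : ∀ V ∈ 𝒱r r, V ∈ 𝒱 := fun V hV => (mem_filter.1 hV).1
    obtain ⟨G, hG, hGc⟩ := round_step (u := u) (σ := σ) (M := M) (B := B) (N := N r * t)
      (k := k r) (D' := D') (η := η) hν ha hA hσ0 hM hη (by linarith) (τpos r hr.le) (𝒱r r)
      (fun V hV => (mem_filter.1 (hsub V hV)).2.1)
      (fun V hV => (mem_filter.1 (hsub V hV)).2.2.1)
      (fun V hV => hext V (hsub V hV))
      (fun V hV => hlow r hr V (hsub V hV)) (admOf r)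
      (fun V hV => by
        obtain ⟨hV', hbad, -⟩ := mem_filter.1 hV
        obtain ⟨-, -, -, hVm, -⟩ := mem_filter.1 hV'
        have hsplit : mass ν V ≤ badMass r V
            + ∑ T ∈ admOf r (lowUnion ν a τ t r V) with T ⊆ V, ν T := by
          simp only [badMass, unstableMass]
          rw [mass, ← sum_filter_add_sum_filter_not V.powerset (fun T => ¬Stable ν a τ u r T)]
          refine add_le_add le_rfl ?_
          rw [← sum_filter_ne_zero]
          refine sum_le_sum_of_subset_of_nonneg (fun T hT => ?_) fun T _ _ => hν.nn T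
          obtain ⟨hT1, hT0⟩ := mem_filter.1 hT
          obtain ⟨hTV, hTs⟩ := mem_filter.1 hT1
          rw [mem_powerset] at hTV
          rw [not_not] at hTs
          exact mem_filter.2 ⟨mem_filter.2 ⟨mem_univ _, hTs, kern_subset_lowUnion hTV
            (not_lt.1 fun h => hT0 (hν.size T h))⟩, hTV⟩
        have : θ - δ / 8 * θ ≤ mass ν V := by nlinarith
        have := mul_le_mul_of_nonneg_left this (show 0 ≤ 1 - δ / 8 by linarith)
        rw [hAdef]
        nlinarith)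
      (fun V hV P hZP hPV hPc => by
        obtain ⟨-, -, hpart⟩ := mem_filter.1 hV
        refine (step_le (u := u) hν ha r (τpos (r + 1) hr).le _ P hZP _
          fun T hT => (mem_filter.1 hT).2).trans ?_
        rw [hσdef]
        refine add_le_add (hpart P hPV hPc) (le_trans ?_ (tiny r hr))
        refine mul_le_mul_of_nonneg_right (pow_le_pow_left₀ (by positivity) ?_ t)
          (τpos (r + 1) hr).le
        exact add_le_add (by exact_mod_cast hPc) le_rfl)
    refine ⟨G, fun _ => ⟨hG, hGc.trans (add_le_add ?_ le_rfl)⟩⟩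
    refine mul_le_mul_of_nonneg_right (mul_le_mul_of_nonneg_left ?_ hM) (volBound_nonneg _ _ _)
    exact pow_le_pow_left₀ (div_nonneg hσ0 hA.le) hσA _
  choose G hG using hround
  refine ⟨(range R).biUnion G, (cost_biUnion_le ha _ _).trans
    (sum_le_sum fun r hr => (hG r (mem_range.1 hr)).2), fun U hU hm => ?_⟩
  by_cases hheir : ∃ Z ⊆ U, Z.card ≤ D ∧ (1 - δ) * θ ≤ mass (child ν a τ u R B) Z
  · exact Or.inr hheir
  · refine Or.inl ?_
    push Not at hheir
    obtain ⟨V, hVU, hVs, hVm⟩ := exists_spanned hν U hU hη.le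
    have hdrop : ((D' : ℝ) + 1) ^ t * η = δ / 16 := by
      rw [hηdef]; field_simp
    have hV : V ∈ 𝒱 := mem_filter.2 ⟨mem_univ _, (card_le_card hVU).trans hU, hVs,
      by linarith, fun Z hZ hZc => hheir Z (hZ.trans hVU) hZc⟩
    obtain ⟨r, hr, hVr⟩ := hgood V hV
    obtain ⟨S, hS, hSV⟩ := (hG r hr).1 V hVr
    exact ⟨S, mem_biUnion.2 ⟨r, mem_range.2 hr, hS⟩, hSV.trans hVU⟩

end Vale.Agent.P034.Full
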