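import Vale.Agent.P034.Full.Sampling

/-!
One level of the descent: a set of size at most `D'` either contains a set of size at most `D`
that is heavy for the child weights, or it is covered at small price.
-/

open Finset

namespace Vale.Agent.P034.Full

set_option linter.unusedSectionVars false

variable {α : Type*} [Fintype α] [DecidableEq α]

/-- The subsets of `T` that have extension weight at least `τ r`. -/
noncomputable def low (ν : Finset α → ℝ) (a : ℝ) (τ : ℕ → ℝ) (r : ℕ) (T : Finset α) :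
    Finset (Finset α) :=
  open Classical in T.powerset.filter fun O => τ r ≤ ext ν a O

/-- The union of these subsets. -/
noncomputable def kern (ν : Finset α → ℝ) (a : ℝ) (τ : ℕ → ℝ) (r : ℕ) (T : Finset α) : Finset α :=
  (low ν a τ r T).biUnion id

/-- The union hardly grows from round `r` to round `r + 1`. -/
def Stable (ν : Finset α → ℝ) (a : ℝ) (τ : ℕ → ℝ) (u r : ℕ) (T : Finset α) : Prop :=
  (kern ν a τ (r + 1) T \ kern ν a τ r T).card ≤ u

/-- The child weight coming from round `r`. -/
noncomputable def part (ν : Finset α → ℝ) (a : ℝ) (τ : ℕ → ℝ) (u r : ℕ) (O : Finset α) : ℝ :=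
  open Classical in
  ∑ T with Stable ν a τ u r T ∧ kern ν a τ r T ⊆ O ∧ O ⊆ kern ν a τ (r + 1) T,
    ν T * a ^ (T \ O).card

/-- The weights of the next level down. -/
noncomputable def child (ν : Finset α → ℝ) (a : ℝ) (τ : ℕ → ℝ) (u R : ℕ) (B : ℝ) (O : Finset α) :
    ℝ :=
  (∑ r ∈ range R, part ν a τ u r O) / R + ext ν a O / B

variable {ν : Finset α → ℝ} {a : ℝ} {t : ℕ} {τ : ℕ → ℝ} {u R : ℕ} {B : ℝ}

theorem kern_subset (r : ℕ) (T : Finset α) : kern ν a τ r T ⊆ T := by
  intro x hx
  obtain ⟨O, hO, hxO⟩ := mem_biUnion.1 hx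
  exact mem_powerset.1 (mem_filter.1 hO).1 hxO

theorem kern_mono {r : ℕ} (h : τ (r + 1) ≤ τ r) (T : Finset α) :
    kern ν a τ r T ⊆ kern ν a τ (r + 1) T := by
  classical
  refine biUnion_subset_biUnion_of_subset_left _ fun O hO => ?_
  obtain ⟨h1, h2⟩ := mem_filter.1 hO
  exact mem_filter.2 ⟨h1, h.trans h2⟩

theorem part_nonneg (hν : Wt ν t) (ha : 0 ≤ a) (r : ℕ) (O : Finset α) : 0 ≤ part ν a τ u r O :=
  sum_nonneg fun T _ => mul_nonneg (hν.nn T) (pow_nonneg ha _)

theorem child_wt (hν : Wt ν t) (ha : 0 ≤ a) (hB : 0 ≤ B) : Wt (child ν a τ u R B) t := by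
  classical
  refine ⟨fun O => add_nonneg (div_nonneg (sum_nonneg fun r _ => part_nonneg hν ha r O)
    (Nat.cast_nonneg _)) (div_nonneg (ext_nonneg hν ha O) hB), fun O hO => ?_⟩
  have h1 : ∀ r, part ν a τ u r O = 0 := fun r => sum_eq_zero fun T hT => by
    have := card_le_card ((mem_filter.1 hT).2.2.2.trans (kern_subset (r + 1) T))
    rw [hν.size T (by omega), zero_mul]
  simp [child, h1, (ext_wt hν ha).size O hO]

theorem wt_part_le (hν : Wt ν t) (ha : 0 ≤ a) {r : ℕ} (hτ : τ (r + 1) ≤ τ r) :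
    wt (part ν a τ u r) a ≤ 2 ^ u * wt ν a := by
  classical
  have hswap : wt (part ν a τ u r) a = ∑ T with Stable ν a τ u r T,
      ((Icc (kern ν a τ r T) (kern ν a τ (r + 1) T)).card : ℝ) * (ν T * a ^ T.card) := by
    unfold wt part
    simp only [sum_mul]
    rw [sum_comm' (t' := univ.filter fun T => Stable ν a τ u r T)
      (s' := fun T => Icc (kern ν a τ r T) (kern ν a τ (r + 1) T)) (fun O T => by
      simp only [mem_filter, mem_univ, true_and, mem_Icc]
      tauto)]
    refine sum_congr rfl fun T _ => ?_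
    rw [← nsmul_eq_mul, ← sum_const]
    refine sum_congr rfl fun O hO => ?_
    rw [mul_assoc, ← pow_add,
      card_sdiff_add_card_eq_card ((mem_Icc.1 hO).2.trans (kern_subset (r + 1) T))]
  rw [hswap, wt, mul_sum]
  refine (sum_le_sum fun T hT => ?_).trans (sum_le_sum_of_subset_of_nonneg (filter_subset _ _)
    fun T _ _ => mul_nonneg (pow_nonneg zero_le_two _) (mul_nonneg (hν.nn T) (pow_nonneg ha _)))
  refine mul_le_mul_of_nonneg_right ?_ (mul_nonneg (hν.nn T) (pow_nonneg ha _))
  rw [card_Icc_finset (kern_mono hτ T), ← card_sdiff_of_subset (kern_mono hτ T)]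
  push_cast
  exact pow_le_pow_right₀ (by norm_num) (mem_filter.1 hT).2

theorem wt_child_le (hν : Wt ν t) (ha : 0 ≤ a) (hB : 0 < B)
    (hτ : ∀ r < R, τ (r + 1) ≤ τ r) :
    wt (child ν a τ u R B) a ≤ (2 ^ u + 2 ^ t / B) * wt ν a := by
  have h0 : wt (child ν a τ u R B) a
      = (∑ r ∈ range R, wt (part ν a τ u r) a) / R + wt (ext ν a) a / B := by
    simp only [wt, child, add_mul, sum_add_distrib, sum_div, div_mul_eq_mul_div, sum_mul]
    rw [sum_comm]
  rw [h0, add_mul, div_mul_eq_mul_div]
  refine add_le_add ?_ (div_le_div_of_nonneg_right (wt_ext_le hν ha) hB.le)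
  rcases Nat.eq_zero_or_pos R with hR | hR
  · subst hR
    simpa using mul_nonneg (pow_nonneg zero_le_two u) (wt_nonneg hν ha)
  rw [div_le_iff₀ (by exact_mod_cast hR)]
  calc ∑ r ∈ range R, wt (part ν a τ u r) a
      ≤ ∑ r ∈ range R, 2 ^ u * wt ν a :=
        sum_le_sum fun r hr => wt_part_le hν ha (hτ r (mem_range.1 hr))
    _ = _ := by rw [sum_const, card_range, nsmul_eq_mul]; ring

/-- The number of unstable rounds of one edge. -/
theorem unstable_count (hτ : ∀ r < R, τ (r + 1) ≤ τ r) {T : Finset α} (hT : T.card ≤ t)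
    [DecidablePred fun r => Stable ν a τ u r T] :
    ((range R).filter fun r => ¬Stable ν a τ u r T).card * (u + 1) ≤ t := by
  have htel : ∀ n ≤ R, (∑ r ∈ range n, (kern ν a τ (r + 1) T \ kern ν a τ r T).card)
      + (kern ν a τ 0 T).card = (kern ν a τ n T).card := by
    intro n hn
    induction n with
    | zero => simp
    | succ n ih =>
      rw [sum_range_succ, add_right_comm, ih (by omega), add_comm,
        card_sdiff_add_card_eq_card (kern_mono (hτ n (by omega)) T)]
  have h1 : ((range R).filter fun r => ¬Stable ν a τ u r T).card * (u + 1)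
      ≤ ∑ r ∈ range R, (kern ν a τ (r + 1) T \ kern ν a τ r T).card := by
    refine le_trans ?_ (sum_le_sum_of_subset (filter_subset (fun r => ¬Stable ν a τ u r T) _))
    rw [← smul_eq_mul]
    refine card_nsmul_le_sum _ _ _ fun r hr => ?_
    have := (mem_filter.1 hr).2
    unfold Stable at this
    omega
  have h2 := htel R le_rfl
  have h3 := card_le_card (kern_subset (ν := ν) (a := a) (τ := τ) R T)
  omega

/-- Dropping the light edges inside a set. -/
theorem exists_spanned {η : ℝ} {D : ℕ} (hν : Wt ν t) (U : Finset α) (hU : U.card ≤ D)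
    (hη : 0 ≤ η) :
    ∃ V ⊆ U, (∀ x ∈ V, ∃ T, T ⊆ V ∧ η ≤ ν T ∧ x ∈ T) ∧
      mass ν U - ((D : ℝ) + 1) ^ t * η ≤ mass ν V := by
  classical
  let big := U.powerset.filter fun T => η ≤ ν T
  refine ⟨big.biUnion id, fun x hx => ?_, fun x hx => ?_, ?_⟩
  · obtain ⟨T, hT, hxT⟩ := mem_biUnion.1 hx
    exact mem_powerset.1 (mem_filter.1 hT).1 hxT
  · obtain ⟨T, hT, hxT⟩ := mem_biUnion.1 hx
    exact ⟨T, fun y hy => mem_biUnion.2 ⟨T, hT, hy⟩, (mem_filter.1 hT).2, hxT⟩
  · have h1 : ∀ T ∈ U.powerset, ν T ≤ (if T ∈ (big.biUnion id).powerset then ν T else 0)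
        + (if T.card ≤ t then η else 0) := by
      intro T hT
      by_cases hb : η ≤ ν T
      · have hTb : T ∈ big := mem_filter.2 ⟨hT, hb⟩
        have hTm : T ∈ (big.biUnion id).powerset :=
          mem_powerset.2 fun x hx => mem_biUnion.2 ⟨T, hTb, hx⟩
        rw [if_pos hTm]
        split_ifs <;> linarith
      · push Not at hb
        by_cases ht : T.card ≤ t
        · rw [if_pos ht]
          split_ifs <;> linarith [hν.nn T]
        · rw [hν.size T (by omega), if_neg ht]
          simp
    have h2 := sum_le_sum h1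
    rw [sum_add_distrib] at h2
    have h3 : (∑ T ∈ U.powerset, if T ∈ (big.biUnion id).powerset then ν T else 0)
        ≤ mass ν (big.biUnion id) := by
      rw [← sum_filter]
      exact sum_le_sum_of_subset_of_nonneg (fun T hT => (mem_filter.1 hT).2) fun T _ _ => hν.nn T
    have h4 : (∑ T ∈ U.powerset, if T.card ≤ t then η else 0) ≤ ((D : ℝ) + 1) ^ t * η := by
      rw [← sum_filter, sum_const, nsmul_eq_mul]
      refine mul_le_mul_of_nonneg_right ?_ hη
      exact_mod_cast (card_small_le U t).trans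
        (Nat.pow_le_pow_left (Nat.add_le_add_right hU 1) t)
    change mass ν U ≤ _ at h2
    linarith

/-- The low sets of round `r` inside `V`, united. -/
noncomputable def lowUnion (ν : Finset α → ℝ) (a : ℝ) (τ : ℕ → ℝ) (t r : ℕ) (V : Finset α) :
    Finset α :=
  open Classical in (V.powerset.filter fun O => O.card ≤ t ∧ τ r ≤ ext ν a O).biUnion id

theorem lowUnion_subset (r : ℕ) (V : Finset α) : lowUnion ν a τ t r V ⊆ V := by
  intro x hx
  obtain ⟨O, hO, hxO⟩ := mem_biUnion.1 hx
  exact mem_powerset.1 (mem_filter.1 hO).1 hxO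

theorem kern_subset_lowUnion {r : ℕ} {T V : Finset α} (hTV : T ⊆ V) (hT : T.card ≤ t) :
    kern ν a τ r T ⊆ lowUnion ν a τ t r V := by
  classical
  refine biUnion_subset_biUnion_of_subset_left _ fun O hO => ?_
  obtain ⟨h1, h2⟩ := mem_filter.1 hO
  rw [mem_powerset] at h1
  exact mem_filter.2 ⟨mem_powerset.2 (h1.trans hTV), (card_le_card h1).trans hT, h2⟩

/-- The bound for one step of the tuple walk. -/
theorem step_le (hν : Wt ν t) (ha : 0 ≤ a) (r : ℕ) (hτ0 : 0 ≤ τ (r + 1))
    (Z P : Finset α) (hZP : Z ⊆ P) (adm : Finset (Finset α))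
    (hadm : ∀ T ∈ adm, Stable ν a τ u r T ∧ kern ν a τ r T ⊆ Z) :
    ∑ T ∈ adm, ν T * a ^ (T \ P).card
      ≤ mass (part ν a τ u r) P + ((P.card : ℝ) + 1) ^ t * τ (r + 1) := by
  classical
  let K := (P.powerset.filter fun O => O.card ≤ t).filter fun O => ext ν a O < τ (r + 1)
  let f : Finset α → Finset α → ℝ := fun T O => ν T * a ^ (T \ O).card
  have hf : ∀ T O, 0 ≤ f T O := fun T O => mul_nonneg (hν.nn T) (pow_nonneg ha _)
  have hpt : ∀ T ∈ adm, ν T * a ^ (T \ P).card ≤
      (∑ O ∈ P.powerset, if Stable ν a τ u r T ∧ kern ν a τ r T ⊆ O ∧ O ⊆ kern ν a τ (r + 1) T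
        then f T O else 0) + ∑ O ∈ K, if O ⊆ T then f T O else 0 := by
    intro T hT
    have e : ν T * a ^ (T \ P).card = f T (T ∩ P) := by
      simp only [f, sdiff_inter_self_left]
    have n1 : ∀ O ∈ P.powerset, 0 ≤ (if Stable ν a τ u r T ∧ kern ν a τ r T ⊆ O ∧
        O ⊆ kern ν a τ (r + 1) T then f T O else 0) := fun O _ => by
      split_ifs
      · exact hf _ _
      · exact le_rfl
    have n2 : ∀ O ∈ K, 0 ≤ (if O ⊆ T then f T O else 0) := fun O _ => by
      split_ifs
      · exact hf _ _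
      · exact le_rfl
    by_cases hc : T ∩ P ⊆ kern ν a τ (r + 1) T
    · refine le_trans ?_ (le_add_of_nonneg_right (sum_nonneg n2))
      refine le_trans ?_ (single_le_sum n1 (mem_powerset.2 (inter_subset_right (s₁ := T))))
      rw [if_pos ⟨(hadm T hT).1, subset_inter (kern_subset r T) ((hadm T hT).2.trans hZP), hc⟩, e]
    · by_cases ht : T.card ≤ t
      · refine le_trans ?_ (le_add_of_nonneg_left (sum_nonneg n1))
        have hK : T ∩ P ∈ K := by
          refine mem_filter.2 ⟨mem_filter.2 ⟨mem_powerset.2 inter_subset_right,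
            (card_le_card inter_subset_left).trans ht⟩, ?_⟩
          by_contra hlow
          push Not at hlow
          exact hc fun x hx => mem_biUnion.2
            ⟨T ∩ P, mem_filter.2 ⟨mem_powerset.2 inter_subset_left, hlow⟩, hx⟩
        refine le_trans ?_ (single_le_sum n2 hK)
        rw [if_pos inter_subset_left, e]
      · rw [hν.size T (by omega), zero_mul]
        exact add_nonneg (sum_nonneg n1) (sum_nonneg n2)
  refine (sum_le_sum hpt).trans ?_
  rw [sum_add_distrib, sum_comm (s := adm) (t := P.powerset), sum_comm (s := adm) (t := K)]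
  refine add_le_add ?_ ?_
  · refine sum_le_sum fun O _ => ?_
    rw [part, sum_filter]
    refine sum_le_sum_of_subset_of_nonneg (subset_univ _) fun T _ _ => ?_
    split_ifs
    · exact hf _ _
    · exact le_rfl
  · calc ∑ O ∈ K, ∑ T ∈ adm, (if O ⊆ T then f T O else 0)
        ≤ ∑ O ∈ K, τ (r + 1) := by
          refine sum_le_sum fun O hO => le_trans ?_ (mem_filter.1 hO).2.le
          rw [← sum_filter]
          exact sum_le_sum_of_subset_of_nonneg
            (fun T hT => mem_filter.2 ⟨mem_univ _, (mem_filter.1 hT).2⟩) fun T _ _ => hf _ _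
      _ = (K.card : ℝ) * τ (r + 1) := by rw [sum_const, nsmul_eq_mul]
      _ ≤ _ := by
          refine mul_le_mul_of_nonneg_right ?_ hτ0
          exact_mod_cast (card_le_card (filter_subset _ _)).trans (card_small_le P t)

end Vale.Agent.P034.Full
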