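import Vale.Agent.P034.Full.Chain

/-!
From a fractional cover to an integral cover.
-/

open Finset

namespace Vale.Agent.P034.Full

/-- The absolute constant. -/
noncomputable def bigK : ℝ := 64 * (2 ^ expo) ^ 2

attribute [local irreducible] expo

theorem one_le_bigK : 1 ≤ bigK := by
  have : (1 : ℝ) ≤ (2 ^ expo) ^ 2 := one_le_pow₀ (one_le_pow₀ one_le_two)
  unfold bigK; linarith

/-- A fractional cover of price at most one half gives an integral one at a constant factor. -/
theorem fractional_to_integral {α : Type*} [Fintype α] [DecidableEq α] (F : Finset (Finset α))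
    (g : Finset α → ℝ) (p : ℝ) (hg : ∀ S, 0 ≤ g S)
    (hcov : ∀ H ∈ F, 1 ≤ ∑ S ∈ H.powerset, g S) (hp0 : 0 ≤ p)
    (hcost : ∑ S, g S * p ^ S.card ≤ 1 / 2) :
    ∃ G : Finset (Finset α), (∀ H ∈ F, ∃ S ∈ G, S ⊆ H) ∧
      ∑ S ∈ G, (p / bigK) ^ S.card ≤ 1 / 2 := by
  classical
  obtain ⟨e, he⟩ : ∃ e : ℕ, e = expo := ⟨_, rfl⟩
  set L : ℝ := bigK with hL
  have hL1 : 1 ≤ L := one_le_bigK
  have hLpos : 0 < L := by linarith
  let w : ℕ → ℝ := fun j => (1 / 2) ^ (j + 3)
  let ν : ℕ → Finset α → ℝ := fun j S =>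
    if S.Nonempty ∧ Nat.log 2 S.card = j then g S / w j else 0
  have hν : ∀ j, Wt (ν j) (2 ^ (j + 1)) := by
    refine fun j => ⟨fun S => ?_, fun S hS => ?_⟩
    · dsimp only [ν]
      split_ifs
      · exact div_nonneg (hg S) (by positivity)
      · exact le_rfl
    · dsimp only [ν]
      rw [if_neg]
      rintro ⟨-, hlog⟩
      have := Nat.lt_pow_succ_log_self one_lt_two S.card
      rw [hlog] at this
      simp only [Nat.succ_eq_add_one] at this
      omega
  have hw : ∀ j, wt (ν j) (p / L) ≤ ((1 / 2 : ℝ) ^ expo) ^ 2 ^ (j + 1) := by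
    intro j
    obtain ⟨m, hm⟩ : ∃ m : ℕ, m = 2 ^ j := ⟨_, rfl⟩
    have h1 : wt (ν j) (p / L) ≤ (1 / L) ^ m / w j * (1 / 2) := by
      refine le_trans ?_ (mul_le_mul_of_nonneg_left hcost (by positivity))
      rw [wt, mul_sum]
      refine sum_le_sum fun S _ => ?_
      dsimp only [ν]
      split_ifs with h
      · have hmS : m ≤ S.card := by
          rw [hm, ← h.2]; exact Nat.pow_log_le_self 2 h.1.card_pos.ne'
        have : (p / L) ^ S.card ≤ (1 / L) ^ m * p ^ S.card := by
          rw [show p / L = 1 / L * p by ring, mul_pow]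
          exact mul_le_mul_of_nonneg_right (pow_le_pow_of_le_one (by positivity)
            (by rw [div_le_one hLpos]; exact hL1) hmS) (pow_nonneg hp0 _)
        calc g S / w j * (p / L) ^ S.card
            ≤ g S / w j * ((1 / L) ^ m * p ^ S.card) :=
              mul_le_mul_of_nonneg_left this (div_nonneg (hg S) (by positivity))
          _ = _ := by ring
      · rw [zero_mul]
        exact mul_nonneg (by positivity) (mul_nonneg (hg S) (pow_nonneg hp0 _))
    refine h1.trans ?_
    rw [pow_succ, ← hm]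
    have h2 : (4 : ℝ) * 2 ^ j ≤ 64 ^ m := by
      have hm1 : 1 ≤ m := hm ▸ Nat.one_le_pow _ _ (by omega)
      have hjm : j ≤ m := hm ▸ Nat.lt_two_pow_self.le
      calc (4 : ℝ) * 2 ^ j ≤ 4 ^ m * 2 ^ m :=
            mul_le_mul (le_self_pow₀ (by norm_num) (by omega))
              (pow_le_pow_right₀ one_le_two hjm) (by positivity) (by positivity)
        _ = 8 ^ m := by rw [← mul_pow]; norm_num
        _ ≤ _ := pow_le_pow_left₀ (by norm_num) (by norm_num) m
    rw [hL, bigK, ← he]
    obtain ⟨E, hE⟩ : ∃ E : ℝ, E = (2 : ℝ) ^ e := ⟨_, rfl⟩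
    have hE0 : 0 < E := hE ▸ by positivity
    rw [show (1 / 2 : ℝ) ^ e = 1 / E by rw [hE, div_pow, one_pow], ← hE]
    have h3 : (1 / (64 * E ^ 2)) ^ m / w j * (1 / 2)
        = (1 / E) ^ (m * 2) * (4 * 2 ^ j / 64 ^ m) := by
      have hwj : w j = 1 / (8 * 2 ^ j) := by
        simp only [w]; rw [div_pow, one_pow, pow_add]; norm_num [mul_comm]
      rw [hwj, mul_comm m 2, pow_mul, show (1 / (64 * E ^ 2)) = (1 / E) ^ 2 * (1 / 64) by ring,
        mul_pow, div_pow (1 : ℝ) 64, one_pow]
      field_simp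
      ring
    rw [h3]
    exact mul_le_of_le_one_right (by positivity) (by rw [div_le_one (by positivity)]; exact h2)
  have hcl : ∀ j, ∃ G : Finset (Finset α), cost (p / L) G ≤ 6 * goal (2 ^ (j + 1)) ∧
      ∀ U : Finset α, 1 ≤ mass (ν j) U → Covered G U :=
    fun j => cover_of_small_wt (hν j) (div_nonneg hp0 hLpos.le) (Nat.one_le_pow _ _ (by omega))
      (hw j)
  choose G hG hGc using hcl
  set n : ℕ := Fintype.card α + 1
  refine ⟨(range n).biUnion G, fun H hH => ?_, ?_⟩
  · by_contra hcon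
    push Not at hcon
    have hsmall : ∀ j ∈ range n, mass (ν j) H * w j ≤ w j := by
      intro j hj
      refine mul_le_of_le_one_left (by positivity) ?_
      by_contra hc
      push Not at hc
      obtain ⟨S, hS, hSH⟩ := hGc j H hc.le
      exact hcon S (mem_biUnion.2 ⟨j, hj, hS⟩) hSH
    have hparts : ∑ j ∈ range n, mass (ν j) H * w j = ∑ S ∈ H.powerset with S.Nonempty, g S := by
      simp only [mass, sum_mul]
      rw [sum_comm, sum_filter]
      refine sum_congr rfl fun S _ => ?_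
      by_cases hS : S.Nonempty
      · rw [if_pos hS, sum_eq_single (Nat.log 2 S.card)]
        · dsimp only [ν]
          rw [if_pos ⟨hS, rfl⟩, div_mul_cancel₀]
          exact pow_ne_zero _ (by norm_num)
        · intro j _ hj
          dsimp only [ν]
          rw [if_neg (fun h => hj h.2.symm), zero_mul]
        · intro h
          exfalso
          apply h
          rw [mem_range]
          have h1 := Nat.log_le_self 2 S.card
          have h2 := card_le_univ S
          omega
      · rw [if_neg hS]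
        refine sum_eq_zero fun j _ => ?_
        dsimp only [ν]
        rw [if_neg (fun h => hS h.1), zero_mul]
    have hempty : g ∅ ≤ 1 / 2 := by
      refine le_trans ?_ hcost
      have := single_le_sum (f := fun S => g S * p ^ S.card)
        (fun S _ => mul_nonneg (hg S) (pow_nonneg hp0 _)) (mem_univ (∅ : Finset α))
      simpa using this
    have hsplit : ∑ S ∈ H.powerset, g S = g ∅ + ∑ S ∈ H.powerset with S.Nonempty, g S := by
      rw [← add_sum_erase _ _ (empty_mem_powerset H)]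
      congr 1
      refine sum_congr ?_ fun _ _ => rfl
      ext S
      simp [nonempty_iff_ne_empty, and_comm]
    have hwsum : ∀ k, ∑ j ∈ range k, w j = (1 / 4) * (1 - (1 / 2) ^ k) := by
      intro k
      induction k with
      | zero => simp
      | succ k ih => rw [sum_range_succ, ih]; simp only [w]; ring
    have := sum_le_sum hsmall
    rw [hparts, hwsum] at this
    have h0 : 0 ≤ (1 / 2 : ℝ) ^ n := by positivity
    have := hcov H hH
    linarith
  · have hone : ∀ j, cost (p / L) (G j) ≤ (1 / 4) * (1 / 2) ^ (j + 1) := by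
      intro j
      refine (hG j).trans ?_
      obtain ⟨t, ht⟩ : ∃ t : ℕ, t = 2 ^ (j + 1) := ⟨_, rfl⟩
      rw [← ht, goal]
      have hjt : j + 1 ≤ 3 * t := by
        have h : j + 1 ≤ 2 ^ (j + 1) := Nat.lt_two_pow_self.le
        omega
      have h1 : Real.exp (-(3 * (t : ℝ) + 20)) ≤ (1 / 2) ^ (j + 21) := by
        rw [one_div, inv_pow, Real.exp_neg]
        refine inv_anti₀ (by positivity) ((two_pow_le_exp _).trans (Real.exp_le_exp.2 ?_))
        have : ((j + 21 : ℕ) : ℝ) ≤ ((3 * t + 20 : ℕ) : ℝ) := by exact_mod_cast by omega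
        push_cast at this ⊢
        linarith
      have h2 : (1 / 2 : ℝ) ^ (j + 21) = (1 / 2) ^ (j + 1) * (1 / 2) ^ 20 := pow_add _ _ 20
      have h3 : 0 ≤ (1 / 2 : ℝ) ^ (j + 1) := by positivity
      nlinarith
    have hsum : ∀ k, ∑ j ∈ range k, (1 / 4 : ℝ) * (1 / 2) ^ (j + 1)
        = 1 / 4 * (1 - (1 / 2) ^ k) := by
      intro k
      induction k with
      | zero => simp
      | succ k ih => rw [sum_range_succ, ih]; ring
    have h0 : 0 ≤ (1 / 2 : ℝ) ^ n := by positivity
    have := (cost_biUnion_le (div_nonneg hp0 hLpos.le) (range n) G).trans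
      ((sum_le_sum fun j _ => hone j).trans (le_of_eq (hsum n)))
    change cost (p / L) _ ≤ 1 / 2
    linarith

/-- The comparison of the two thresholds. -/
theorem qf_le_mul_q {α : Type*} [Fintype α] [DecidableEq α] (F : Finset (Finset α))
    (hne : ∅ ∉ F) :
    sSup {p : ℝ | 0 ≤ p ∧ p ≤ 1 ∧ ∃ g : Finset α → ℝ, (∀ S, 0 ≤ g S ∧ g S ≤ 1) ∧
        (∀ H ∈ F, 1 ≤ ∑ S ∈ H.powerset, g S) ∧ ∑ S, g S * p ^ S.card ≤ 1 / 2}
      ≤ bigK * sSup {p : ℝ | 0 ≤ p ∧ p ≤ 1 ∧ ∃ G : Finset (Finset α),
        (∀ H ∈ F, ∃ S ∈ G, S ⊆ H) ∧ ∑ S ∈ G, p ^ S.card ≤ 1 / 2} := by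
  have hK := one_le_bigK
  refine csSup_le ⟨0, le_rfl, zero_le_one, ?_⟩ fun p hp => ?_
  · refine ⟨fun S => if S = ∅ then 0 else 1, fun S => by dsimp only; split_ifs <;> norm_num,
      fun H hH => ?_, ?_⟩
    · have : H ≠ ∅ := fun h => hne (h ▸ hH)
      refine le_trans (le_of_eq (by simp [this])) (single_le_sum
        (f := fun S => if S = (∅ : Finset α) then (0 : ℝ) else 1)
        (fun S _ => by split_ifs <;> norm_num) (mem_powerset_self H))
    · refine le_trans (le_of_eq (sum_eq_zero fun S _ => ?_)) (by norm_num)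
      by_cases hS : S = ∅
      · simp [hS]
      · rw [zero_pow (fun h => hS (card_eq_zero.1 h)), mul_zero]
  · obtain ⟨hp0, hp1, g, hg, hcov, hcost⟩ := hp
    obtain ⟨G, hG, hGc⟩ :=
      fractional_to_integral F g p (fun S => (hg S).1) hcov hp0 hcost
    have hle : p / bigK ≤ sSup {p : ℝ | 0 ≤ p ∧ p ≤ 1 ∧ ∃ G : Finset (Finset α),
        (∀ H ∈ F, ∃ S ∈ G, S ⊆ H) ∧ ∑ S ∈ G, p ^ S.card ≤ 1 / 2} :=
      le_csSup ⟨1, fun x hx => hx.2.1⟩ ⟨div_nonneg hp0 (by linarith),
        (div_le_one (by linarith)).2 (hp1.trans hK), G, hG, hGc⟩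
    rwa [div_le_iff₀ (by linarith), mul_comm] at hle

end Vale.Agent.P034.Full
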