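import Vale.Agent.P034.Full.Basic

/-!
Rounding a weighted list of candidates to a cover, and counting sets spanned by heavy edges.
-/

open Finset

namespace Vale.Agent.P034.Full

set_option linter.unusedSectionVars false

variable {α : Type*} [Fintype α] [DecidableEq α]

/-- Derandomised sampling of candidates. -/
theorem round_cover {a : ℝ} (ha : 0 ≤ a) (q : Finset α → ℝ) (hq : ∀ S, 0 ≤ q S)
    (I : Finset (Finset α)) :
    ∀ 𝒰 : Finset (Finset α), ∃ G : Finset (Finset α), (∀ U ∈ 𝒰, Covered G U) ∧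
      cost a G ≤ (∑ S ∈ I, q S * a ^ S.card)
        + ∑ U ∈ 𝒰, a ^ U.card * Real.exp (-∑ S ∈ I with S ⊆ U, q S) := by
  induction I using Finset.induction with
  | empty =>
    intro 𝒰
    exact ⟨𝒰, fun U hU => ⟨U, hU, subset_rfl⟩, le_of_eq (by simp [cost])⟩
  | @insert S I hS ih =>
    intro 𝒰
    let W : Finset α → ℝ := fun U => a ^ U.card * Real.exp (-∑ T ∈ I with T ⊆ U, q T)
    let W' : Finset α → ℝ := fun U => a ^ U.card * Real.exp (-∑ T ∈ insert S I with T ⊆ U, q T)
    have hW : ∀ U, 0 ≤ W U := fun U => mul_nonneg (pow_nonneg ha _) (Real.exp_pos _).le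
    have hW' : ∀ U, 0 ≤ W' U := fun U => mul_nonneg (pow_nonneg ha _) (Real.exp_pos _).le
    have hnot : ∀ U, ¬S ⊆ U → W' U = W U := by
      intro U hU; simp only [W, W', filter_insert, if_neg hU]
    have hin : ∀ U, S ⊆ U → W' U = Real.exp (-q S) * W U := by
      intro U hU
      simp only [W, W', filter_insert, if_pos hU]
      rw [sum_insert (by simp [hS]), neg_add, Real.exp_add]
      ring
    obtain ⟨A, hA, hAc⟩ := ih (𝒰.filter fun U => ¬S ⊆ U)
    obtain ⟨B, hB, hBc⟩ := ih 𝒰
    have hA' : ∀ U ∈ 𝒰, Covered (insert S A) U := fun U hU => by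
      by_cases h : S ⊆ U
      · exact ⟨S, mem_insert_self _ _, h⟩
      · obtain ⟨T, hT, hTU⟩ := hA U (mem_filter.2 ⟨hU, h⟩)
        exact ⟨T, mem_insert_of_mem hT, hTU⟩
    have hAcost : cost a (insert S A) ≤ a ^ S.card
        + ((∑ T ∈ I, q T * a ^ T.card) + ∑ U ∈ 𝒰 with ¬S ⊆ U, W U) := by
      refine le_trans ?_ (by exact add_le_add le_rfl hAc)
      by_cases hSA : S ∈ A
      · rw [insert_eq_of_mem hSA]; linarith [pow_nonneg ha S.card]
      · rw [cost, sum_insert hSA]; rfl
    have hgoal : (∑ T ∈ insert S I, q T * a ^ T.card) + ∑ U ∈ 𝒰, W' U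
        = q S * a ^ S.card + (∑ T ∈ I, q T * a ^ T.card) + ∑ U ∈ 𝒰, W' U := by
      rw [sum_insert hS]
    change ∃ G, (∀ U ∈ 𝒰, Covered G U) ∧
      cost a G ≤ (∑ T ∈ insert S I, q T * a ^ T.card) + ∑ U ∈ 𝒰, W' U
    rw [hgoal]
    have hsplit := sum_filter_add_sum_filter_not 𝒰 (fun U => S ⊆ U) W'
    have hnsum : ∑ U ∈ 𝒰 with ¬S ⊆ U, W' U = ∑ U ∈ 𝒰 with ¬S ⊆ U, W U :=
      sum_congr rfl fun U hU => hnot U (mem_filter.1 hU).2
    by_cases h1 : 1 ≤ q S
    · refine ⟨insert S A, hA', hAcost.trans ?_⟩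
      have : a ^ S.card ≤ q S * a ^ S.card := le_mul_of_one_le_left (pow_nonneg ha _) h1
      have hpos : 0 ≤ ∑ U ∈ 𝒰 with S ⊆ U, W' U := sum_nonneg fun U _ => hW' U
      linarith
    · push Not at h1
      have hmix : q S * cost a (insert S A) + (1 - q S) * cost a B
          ≤ q S * a ^ S.card + (∑ T ∈ I, q T * a ^ T.card) + ∑ U ∈ 𝒰, W' U := by
        have e1 := mul_le_mul_of_nonneg_left hAcost (hq S)
        have e2 := mul_le_mul_of_nonneg_left hBc (sub_nonneg.2 h1.le)
        have e3 : (1 - q S) * ∑ U ∈ 𝒰 with S ⊆ U, W U ≤ ∑ U ∈ 𝒰 with S ⊆ U, W' U := by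
          rw [mul_sum]
          refine sum_le_sum fun U hU => ?_
          rw [hin U (mem_filter.1 hU).2]
          exact mul_le_mul_of_nonneg_right (Real.one_sub_le_exp_neg _) (hW U)
        have e4 := sum_filter_add_sum_filter_not 𝒰 (fun U => S ⊆ U) W
        change (1 - q S) * cost a B ≤ (1 - q S) * (_ + ∑ U ∈ 𝒰, W U) at e2
        rw [← e4] at e2
        nlinarith
      by_cases hAB : cost a (insert S A) ≤ cost a B
      · refine ⟨insert S A, hA', le_trans ?_ hmix⟩
        nlinarith [hq S]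
      · refine ⟨B, hB, le_trans ?_ hmix⟩
        nlinarith [hq S]

/-- The sampling step with a uniform hit bound. -/
theorem sample_cover {a M : ℝ} (ha : 0 ≤ a) (q : Finset α → ℝ) (hq : ∀ S, 0 ≤ q S)
    (𝒰 : Finset (Finset α)) (hit : ∀ U ∈ 𝒰, M ≤ mass q U) :
    ∃ G : Finset (Finset α), (∀ U ∈ 𝒰, Covered G U) ∧
      cost a G ≤ wt q a + Real.exp (-M) * cost a 𝒰 := by
  obtain ⟨G, hG, hc⟩ := round_cover ha q hq univ 𝒰
  refine ⟨G, hG, hc.trans (add_le_add le_rfl ?_)⟩
  rw [cost, mul_sum]
  refine sum_le_sum fun U hU => ?_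
  rw [mul_comm]
  refine mul_le_mul_of_nonneg_right (Real.exp_le_exp.2 (neg_le_neg ?_)) (pow_nonneg ha _)
  refine (hit U hU).trans (le_of_eq ?_)
  rw [mass]
  congr 1
  ext S
  simp

/-- Union cost. -/
theorem cost_union_le {a : ℝ} (ha : 0 ≤ a) (G H : Finset (Finset α)) :
    cost a (G ∪ H) ≤ cost a G + cost a H := by
  have := sum_union_inter (s₁ := G) (s₂ := H) (f := fun S => a ^ S.card)
  have h0 : 0 ≤ ∑ S ∈ G ∩ H, a ^ S.card := sum_nonneg fun S _ => pow_nonneg ha _
  unfold cost
  linarith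

/-- Union cost over an index set. -/
theorem cost_biUnion_le {a : ℝ} (ha : 0 ≤ a) {ι : Type*} [DecidableEq ι] (s : Finset ι)
    (G : ι → Finset (Finset α)) : cost a (s.biUnion G) ≤ ∑ i ∈ s, cost a (G i) := by
  induction s using Finset.induction with
  | empty => simp [cost]
  | @insert i s hi ih =>
    rw [biUnion_insert, sum_insert hi]
    exact (cost_union_le ha _ _).trans (add_le_add le_rfl ih)

/-- Sets spanned by heavy edges are few. -/
theorem cost_spanned_le {ν : Finset α → ℝ} {a η B : ℝ} {t D : ℕ} (hν : Wt ν t) (ha : 0 ≤ a)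
    (hη : 0 < η) (hB : 0 ≤ B) (𝒰 : Finset (Finset α)) (hD : ∀ U ∈ 𝒰, U.card ≤ D)
    (hspan : ∀ U ∈ 𝒰, ∀ x ∈ U, ∃ T, T ⊆ U ∧ η ≤ ν T ∧ x ∈ T)
    (hext : ∀ U ∈ 𝒰, ∀ O, O ⊆ U → O.card ≤ t → ext ν a O ≤ B) :
    cost a 𝒰 ≤ (D + 1) * (max 1 (((D : ℝ) + 1) ^ t * (B / η))) ^ D := by
  classical
  set X : ℝ := max 1 (((D : ℝ) + 1) ^ t * (B / η)) with hX
  have hX1 : 1 ≤ X := le_max_left _ _
  let next : Finset α → Finset (Finset α) := fun P =>
    univ.filter fun T => η ≤ ν T ∧ ∃ U ∈ 𝒰, P ∪ T ⊆ U
  let lev : ℕ → Finset (Finset α) := fun k => Nat.rec {∅}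
    (fun _ L => L.biUnion fun P => (next P).image fun T => P ∪ T) k
  have hstep : ∀ P : Finset α, ∑ T ∈ next P, a ^ (T \ P).card ≤ X := by
    intro P
    rcases (next P).eq_empty_or_nonempty with h | ⟨T₀, hT₀⟩
    · rw [h, sum_empty]; linarith
    obtain ⟨-, -, U, hU, hPU⟩ := mem_filter.1 hT₀
    have hP : P ⊆ U := subset_union_left.trans hPU
    let K := P.powerset.filter fun O => O.card ≤ t
    have hmaps : ∀ T ∈ next P, T ∩ P ∈ K := by
      intro T hT
      refine mem_filter.2 ⟨mem_powerset.2 inter_subset_right, ?_⟩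
      by_contra hc
      obtain ⟨-, hηT, -⟩ := mem_filter.1 hT
      have := hν.size T (by have := card_le_card (inter_subset_left (s₁ := T) (s₂ := P)); omega)
      linarith
    rw [← sum_fiberwise_of_maps_to hmaps]
    have hfib : ∀ O ∈ K, ∑ T ∈ next P with T ∩ P = O, a ^ (T \ P).card ≤ B / η := by
      intro O hO
      obtain ⟨hOP, hOt⟩ := mem_filter.1 hO
      rw [le_div_iff₀ hη]
      refine le_trans ?_ (hext U hU O ((mem_powerset.1 hOP).trans hP) hOt)
      rw [sum_mul, ext]
      refine le_trans (sum_le_sum (g := fun T => ν T * a ^ (T \ O).card) fun T hT => ?_)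
        (sum_le_sum_of_subset_of_nonneg (fun T hT => ?_)
          fun T _ _ => mul_nonneg (hν.nn T) (pow_nonneg ha _))
      · obtain ⟨hT', hTO⟩ := mem_filter.1 hT
        have : T \ P = T \ O := by rw [← hTO, sdiff_inter_self_left]
        rw [this, mul_comm]
        exact mul_le_mul_of_nonneg_right (mem_filter.1 hT').2.1 (pow_nonneg ha _)
      · obtain ⟨-, hTO⟩ := mem_filter.1 hT
        refine mem_filter.2 ⟨mem_univ _, ?_⟩
        rw [← hTO]; exact inter_subset_left
    refine (sum_le_card_nsmul _ _ _ hfib).trans ?_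
    rw [nsmul_eq_mul]
    refine le_trans ?_ (le_max_right _ _)
    refine mul_le_mul_of_nonneg_right ?_ (div_nonneg hB hη.le)
    have h1 := (card_small_le P t).trans
      (Nat.pow_le_pow_left (Nat.add_le_add_right ((card_le_card hP).trans (hD U hU)) 1) t)
    exact_mod_cast h1
  have hlev : ∀ k, cost a (lev k) ≤ X ^ k := by
    intro k
    induction k with
    | zero => simp [lev, cost]
    | succ k ih =>
      refine le_trans (cost_biUnion_le ha (lev k) _) ?_
      calc ∑ P ∈ lev k, cost a ((next P).image fun T => P ∪ T)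
          ≤ ∑ P ∈ lev k, ∑ T ∈ next P, a ^ (P ∪ T).card :=
            sum_le_sum fun P _ => sum_image_le_of_nonneg fun S _ => pow_nonneg ha _
        _ = ∑ P ∈ lev k, a ^ P.card * ∑ T ∈ next P, a ^ (T \ P).card := by
            refine sum_congr rfl fun P _ => ?_
            rw [mul_sum]
            refine sum_congr rfl fun T _ => ?_
            rw [← pow_add, ← card_union_of_disjoint disjoint_sdiff, union_sdiff_self_eq_union]
        _ ≤ ∑ P ∈ lev k, a ^ P.card * X :=
            sum_le_sum fun P _ => mul_le_mul_of_nonneg_left (hstep P) (pow_nonneg ha _)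
        _ ≤ X ^ (k + 1) := by
            rw [← sum_mul, pow_succ]
            exact mul_le_mul_of_nonneg_right ih (by linarith)
  have hreach : ∀ U ∈ 𝒰, ∀ k, ∃ j ≤ k, ∃ P ∈ lev j, P ⊆ U ∧ (P = U ∨ k ≤ P.card) := by
    intro U hU k
    induction k with
    | zero => exact ⟨0, le_rfl, ∅, mem_singleton_self _, empty_subset _, Or.inr le_rfl⟩
    | succ k ih =>
      obtain ⟨j, hj, P, hP, hPU, hcase⟩ := ih
      by_cases hPe : P = U
      · exact ⟨j, hj.trans k.le_succ, P, hP, hPU, Or.inl hPe⟩
      · have hcase' : k ≤ P.card := hcase.resolve_left hPe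
        obtain ⟨x, hxU, hxP⟩ := not_subset.1 fun h => hPe (subset_antisymm hPU h)
        obtain ⟨T, hTU, hηT, hxT⟩ := hspan U hU x hxU
        refine ⟨j + 1, by omega, P ∪ T, ?_, union_subset hPU hTU, Or.inr ?_⟩
        · exact mem_biUnion.2 ⟨P, hP, mem_image.2
            ⟨T, mem_filter.2 ⟨mem_univ _, hηT, U, hU, union_subset hPU hTU⟩, rfl⟩⟩
        · have : P ⊂ P ∪ T := ⟨subset_union_left, fun h => hxP (h (mem_union_right _ hxT))⟩
          have := card_lt_card this
          omega
  have hsub : 𝒰 ⊆ (range (D + 1)).biUnion lev := by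
    intro U hU
    obtain ⟨j, hj, P, hP, hPU, hcase⟩ := hreach U hU D
    have : P = U := hcase.elim id fun h => eq_of_subset_of_card_le hPU ((hD U hU).trans h)
    subst this
    exact mem_biUnion.2 ⟨j, mem_range.2 (by omega), hP⟩
  calc cost a 𝒰 ≤ cost a ((range (D + 1)).biUnion lev) :=
        sum_le_sum_of_subset_of_nonneg hsub fun S _ _ => pow_nonneg ha _
    _ ≤ ∑ k ∈ range (D + 1), cost a (lev k) := cost_biUnion_le ha _ _
    _ ≤ ∑ k ∈ range (D + 1), X ^ D :=
        sum_le_sum fun k hk => (hlev k).trans (pow_le_pow_right₀ hX1 (by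
          have := mem_range.1 hk; omega))
    _ = (D + 1) * X ^ D := by simp

/-- The tuple walk: weights of all prefixes after `k` steps. -/
theorem tuple_weights {ν : Finset α → ℝ} {a σ A : ℝ} {t : ℕ} (hν : Wt ν t) (ha : 0 ≤ a)
    (hσ : 0 ≤ σ) (hA : 0 ≤ A) (Z : Finset α) (adm : Finset (Finset α)) (k : ℕ) :
    ∃ μ : Finset α → ℝ, (∀ P, 0 ≤ μ P) ∧ wt μ a ≤ σ ^ k * a ^ Z.card ∧
      ∀ V : Finset α, Z ⊆ V → A ≤ ∑ T ∈ adm with T ⊆ V, ν T →
        (∀ P, Z ⊆ P → P ⊆ V → P.card ≤ Z.card + k * t →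
          ∑ T ∈ adm, ν T * a ^ (T \ P).card ≤ σ) →
        A ^ k ≤ ∑ P ∈ V.powerset with Z ⊆ P ∧ P.card ≤ Z.card + k * t, μ P := by
  classical
  induction k with
  | zero =>
    refine ⟨fun P => if P = Z then 1 else 0, fun P => by dsimp only; split_ifs <;> norm_num, ?_, ?_⟩
    · simp [wt]
    · intro V hZV _ _
      simp [hZV]
  | succ k ih =>
    obtain ⟨μ, hμ0, hμc, hμh⟩ := ih
    let good : Finset α → Prop := fun P => ∑ T ∈ adm, ν T * a ^ (T \ P).card ≤ σ
    refine ⟨fun P' => ∑ P, ∑ T ∈ adm, if good P ∧ P ∪ T = P' then μ P * ν T else 0,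
      fun P' => sum_nonneg fun P _ => sum_nonneg fun T _ => by
        split_ifs
        · exact mul_nonneg (hμ0 P) (hν.nn T)
        · exact le_rfl, ?_, ?_⟩
    · have key : ∀ P : Finset α,
          ∑ P', (∑ T ∈ adm, if good P ∧ P ∪ T = P' then μ P * ν T else 0) * a ^ P'.card
            ≤ σ * (μ P * a ^ P.card) := by
        intro P
        by_cases hg : good P
        · simp only [sum_mul, ite_mul, zero_mul, hg, true_and]
          rw [sum_comm]
          simp only [sum_ite_eq, mem_univ, if_true]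
          calc ∑ T ∈ adm, μ P * ν T * a ^ (P ∪ T).card
              = μ P * a ^ P.card * ∑ T ∈ adm, ν T * a ^ (T \ P).card := by
                rw [mul_sum]
                refine sum_congr rfl fun T _ => ?_
                rw [show (P ∪ T).card = P.card + (T \ P).card by
                  rw [← card_union_of_disjoint disjoint_sdiff, union_sdiff_self_eq_union],
                  pow_add]
                ring
            _ ≤ μ P * a ^ P.card * σ :=
                mul_le_mul_of_nonneg_left hg (mul_nonneg (hμ0 P) (pow_nonneg ha _))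
            _ = σ * (μ P * a ^ P.card) := mul_comm _ _
        · simp only [hg, false_and, if_false, sum_const_zero, zero_mul]
          exact mul_nonneg hσ (mul_nonneg (hμ0 P) (pow_nonneg ha _))
      calc wt _ a = ∑ P, ∑ P',
            (∑ T ∈ adm, if good P ∧ P ∪ T = P' then μ P * ν T else 0) * a ^ P'.card := by
            unfold wt
            simp only [sum_mul]
            rw [sum_comm]
        _ ≤ ∑ P, σ * (μ P * a ^ P.card) := sum_le_sum fun P _ => key P
        _ = σ * wt μ a := by rw [wt, mul_sum]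
        _ ≤ σ ^ (k + 1) * a ^ Z.card := by
            rw [pow_succ, mul_comm (σ ^ k), mul_assoc]
            exact mul_le_mul_of_nonneg_left hμc hσ
    · intro V hZV hA' hgood
      have hk : ∀ P, Z ⊆ P → P ⊆ V → P.card ≤ Z.card + k * t → good P := fun P h1 h2 h3 =>
        hgood P h1 h2 (by rw [Nat.succ_mul]; omega)
      have hprev := hμh V hZV hA' hk
      set tgt := V.powerset.filter fun P => Z ⊆ P ∧ P.card ≤ Z.card + (k + 1) * t
      set src := V.powerset.filter fun P => Z ⊆ P ∧ P.card ≤ Z.card + k * t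
      calc A ^ (k + 1) ≤ (∑ P ∈ src, μ P) * ∑ T ∈ adm with T ⊆ V, ν T := by
            rw [pow_succ]
            exact mul_le_mul hprev hA' hA (sum_nonneg fun P _ => hμ0 P)
        _ = ∑ P ∈ src, ∑ T ∈ adm with T ⊆ V, μ P * ν T := by rw [sum_mul_sum]
        _ ≤ ∑ P ∈ src, ∑ T ∈ adm, ∑ P' ∈ tgt, if good P ∧ P ∪ T = P' then μ P * ν T else 0 := by
            refine sum_le_sum fun P hP => ?_
            obtain ⟨hPV, hZP, hPc⟩ := mem_filter.1 hP
            rw [mem_powerset] at hPV
            rw [sum_filter]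
            refine sum_le_sum fun T _ => ?_
            have hnn : 0 ≤ ∑ P' ∈ tgt, if good P ∧ P ∪ T = P' then μ P * ν T else 0 :=
              sum_nonneg fun P' _ => by
                split_ifs
                · exact mul_nonneg (hμ0 P) (hν.nn T)
                · exact le_rfl
            by_cases hTV : T ⊆ V
            · rw [if_pos hTV]
              by_cases hTt : T.card ≤ t
              · have hmem : P ∪ T ∈ tgt := mem_filter.2 ⟨mem_powerset.2 (union_subset hPV hTV),
                  hZP.trans subset_union_left, by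
                    have := card_union_le P T; rw [Nat.succ_mul]; omega⟩
                simp only [hk P hZP hPV hPc, true_and, sum_ite_eq, hmem, if_true, le_refl]
              · rw [hν.size T (by omega), mul_zero]
                simp
            · rw [if_neg hTV]
              exact hnn
        _ ≤ ∑ P, ∑ T ∈ adm, ∑ P' ∈ tgt, if good P ∧ P ∪ T = P' then μ P * ν T else 0 :=
            sum_le_sum_of_subset_of_nonneg (subset_univ _) fun P _ _ =>
              sum_nonneg fun T _ => sum_nonneg fun P' _ => by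
                split_ifs
                · exact mul_nonneg (hμ0 P) (hν.nn T)
                · exact le_rfl
        _ = _ := by
            rw [sum_comm (s := tgt)]
            exact sum_congr rfl fun P _ => sum_comm

end Vale.Agent.P034.Full
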